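import Vale.Agent.P127.Stk.Abs.Defs

/-!
# P127 / Stk / Abs : the chain argument, definitions and exact statements of the parts

A `Link` is a law with two samples `s`, `e` of `P` (same `b`) and a displacement `D` of `x`
(`x e = x s + D` up to a bounded error), with `D` nearly independent of `x s`.
A `Triple` is a Markov chain of three links `A, L, A`; with `P, D, Q` the three displacements it is
again a link (with displacement `P + D + Q`) and `Z = P + Q` is the variable of `Chain`.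
-/

namespace Vale.Agent.P127.Stk.Abs

open Finset Vale.Agent.P127 Vale.Agent.P127.Stk

variable {Ω : Type} [Fintype Ω] {β κ : Type} {d : ℕ}

/-- a link -/
structure Link (P : Law Ω) (b : Ω → β) (x : Ω → Fin d → ℤ) (K : ℕ) (E : ℝ) : Type 1 where
  Ωl : Type
  fin : Fintype Ωl
  M : Law Ωl
  s : Ωl → Ω
  e : Ωl → Ω
  D : Ωl → Fin d → ℤ
  smp_s : Smp M s P
  smp_e : Smp M e P
  hb : ∀ m, b (s m) = b (e m)
  noise : ∀ m c, |x (e m) c - x (s m) c - D m c| ≤ K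
  info : mi M D (fun m => x (s m)) (fun m => b (s m)) ≤ E

attribute [instance] Link.fin

/-- the entropy of the displacement -/
noncomputable def Link.h {P : Law Ω} {b : Ω → β} {x : Ω → Fin d → ℤ} {K : ℕ} {E : ℝ}
    (A : Link P b x K E) : ℝ := hc A.M A.D (fun m => b (A.s m))

/-- three links in a row: `u`, then `l`, then `v` -/
structure Triple {P : Law Ω} {b : Ω → β} {x : Ω → Fin d → ℤ} {K K1 : ℕ} {E E1 : ℝ}
    (A : Link P b x K E) (L : Link P b x K1 E1) : Type 1 where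
  Ωt : Type
  fin : Fintype Ωt
  M : Law Ωt
  u : Ωt → A.Ωl
  l : Ωt → L.Ωl
  v : Ωt → A.Ωl
  smp_u : Smp M u A.M
  smp_l : Smp M l L.M
  smp_v : Smp M v A.M
  hul : ∀ m, b (A.s (u m)) = b (L.s (l m))
  hlv : ∀ m, b (L.s (l m)) = b (A.s (v m))
  xul : ∀ m, x (A.e (u m)) = x (L.s (l m))
  xlv : ∀ m, x (L.e (l m)) = x (A.s (v m))
  ci_l : mi M l u (fun m => (x (L.s (l m)), b (L.s (l m)))) = 0
  ci_v : mi M v (fun m => (u m, l m)) (fun m => (x (A.s (v m)), b (A.s (v m)))) = 0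

attribute [instance] Triple.fin

/-- the entropic facts on the three displacements `P, D, Q` of a triple (`bt` = the conditioning,
`xs` = the value of `x` at the start) -/
structure Facts {Ωt : Type} [Fintype Ωt] {β : Type} {d : ℕ} (M : Law Ωt) (bt : Ωt → β)
    (P D Q xs : Ωt → Fin d → ℤ) (h h' E E1 : ℝ) : Prop where
  hP : hc M P bt = h
  hQ : hc M Q bt = h
  hS : hc M (fun m => P m + D m + Q m) bt = h'
  iPQ : mi M P Q bt ≤ E
  hPD : hc M (fun m => P m + D m) bt ≤ h' + E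
  hPQ : hc M (fun m => P m + Q m) bt ≤ h' + E + E1
  iD : mi M (fun m => (P m, Q m)) D bt ≤ E + E1
  ix : mi M (fun m => (P m, Q m)) xs bt ≤ 2 * E

/-- A2. the base link -/
def PBaseLink : Prop := ∀ {Ω : Type} [Fintype Ω] {β κ : Type} {d : ℕ} (P : Law Ω) (b : Ω → β)
  (q : Ω → κ) (x0 x φ : Ω → Fin d → ℤ) (N0 : ℕ) (ρ e : ℝ),
  (∀ ω ω', b ω = b ω' → q ω = q ω' → φ ω = φ ω') →
  (∀ ω c, |x ω c - x0 ω c - φ ω c| ≤ N0) →
  hc P x0 b ≤ ρ + e → hc P x b ≤ ρ + e → ρ - e ≤ hc P x0 (fun ω => (q ω, b ω)) →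
  ∃ L : Link P b x (2 * N0) (6 * e + d * Real.log (2 * N0 + 1)),
    ∃ l : L.Ωl → Law.GT (fun ω => (x0 ω, b ω)) (fun ω => (x0 ω, b ω)),
      Smp L.M l (pairL P (fun ω => (x0 ω, b ω))) ∧ (∀ m, L.s m = (l m).fst) ∧
      (∀ m, L.e m = (l m).snd) ∧ (∀ m, L.D m = φ (l m).snd - φ (l m).fst)

/-- A3. existence of triples -/
def PTriple : Prop := ∀ {Ω : Type} [Fintype Ω] {β : Type} {d : ℕ} {P : Law Ω} {b : Ω → β}
  {x : Ω → Fin d → ℤ} {K K1 : ℕ} {E E1 : ℝ} (A : Link P b x K E) (L : Link P b x K1 E1),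
  Nonempty (Triple A L)

/-- A4. the facts for a triple (`0 ≤ E, E1` follow from `mi_nonneg`) -/
def PFacts : Prop := ∀ {Ω : Type} [Fintype Ω] {β : Type} {d : ℕ} {P : Law Ω} {b : Ω → β}
  {x : Ω → Fin d → ℤ} {K K1 : ℕ} {E E1 : ℝ} (A : Link P b x K E) (L : Link P b x K1 E1)
  (T : Triple A L), ∃ h' : ℝ,
  Facts T.M (fun m => b (A.s (T.u m))) (fun m => A.D (T.u m)) (fun m => L.D (T.l m))
    (fun m => A.D (T.v m)) (fun m => x (A.s (T.u m))) A.h h' E E1 ∧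
  mi T.M (fun m => A.s (T.u m)) (fun m => A.D (T.u m) + A.D (T.v m)) (fun m => b (A.s (T.u m)))
    ≤ h' - A.h + 2 * E + E1

/-- A5. a triple is a link -/
def PTripleLink : Prop := ∀ {Ω : Type} [Fintype Ω] {β : Type} {d : ℕ} {P : Law Ω} {b : Ω → β}
  {x : Ω → Fin d → ℤ} {K K1 : ℕ} {E E1 : ℝ} (A : Link P b x K E) (L : Link P b x K1 E1)
  (T : Triple A L), ∃ A' : Link P b x (2 * K + K1) (2 * E + E1),
    A'.h = hc T.M (fun m => A.D (T.u m) + L.D (T.l m) + A.D (T.v m)) (fun m => b (A.s (T.u m)))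

/-- A6. `x0` absorbs `- P` given `(b, Z)`, `Z = P + Q` -/
def PAbsA : Prop := ∀ {Ωt : Type} [Fintype Ωt] {β κ : Type} {d : ℕ} (M : Law Ωt) (bt : Ωt → β)
  (qs : Ωt → κ) (P D Q x0s xs xe φs : Ωt → Fin d → ℤ) (h h' E E1 ρ e : ℝ) (K N0 : ℕ),
  Facts M bt P D Q xs h h' E E1 →
  (∀ m m', bt m = bt m' → qs m = qs m' → φs m = φs m') →
  (∀ m c, |xs m c - x0s m c - φs m c| ≤ N0) →
  (∀ m c, |xe m c - xs m c - P m c| ≤ K) → hc M xe bt ≤ ρ + e →
  Abs1 M (fun m => (bt m, P m + Q m)) qs x0s M (fun m => (bt m, P m + Q m)) (fun m => - P m)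
    (ρ + e + d * Real.log (2 * K + 1) + d * Real.log (2 * N0 + 1) + 2 * (h' - h) + 7 * E + 2 * E1)

/-- A7. `- P` absorbs `D` given `(b, Z)`, `Z = P + Q` -/
def PAbsB : Prop := ∀ {Ωt : Type} [Fintype Ωt] {β : Type} {d : ℕ} (M : Law Ωt) (bt : Ωt → β)
  (P D Q xs : Ωt → Fin d → ℤ) (h h' E E1 : ℝ), Facts M bt P D Q xs h h' E E1 →
  Abs2 M (fun m => (bt m, P m + Q m)) D M (fun m => (bt m, P m + Q m)) (fun m => - P m)
    (4 * (h' - h) + 9 * E + 4 * E1)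

end Vale.Agent.P127.Stk.Abs
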