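import Vale.Agent.P127.Stk.Abs.Basic
import Vale.Agent.P127.Stk.Abs.ChainDefs

/-!
# P127 / Stk / Abs : the chain argument from its parts (pigeonhole and parameters)
-/

namespace Vale.Agent.P127.Stk.Abs

open Finset Vale.Agent.P127 Vale.Agent.P127.Stk

theorem Abs1.mono {Ω Ξ : Type} [Fintype Ω] [Fintype Ξ] {β κ : Type} {d : ℕ} {P : Law Ω}
    {b : Ω → β} {q : Ω → κ} {x : Ω → Fin d → ℤ} {R : Law Ξ} {bR : Ξ → β} {Pi : Ξ → Fin d → ℤ}
    {r r' : ℝ} (h : Abs1 P b q x R bR Pi r) (hr : r ≤ r') : Abs1 P b q x R bR Pi r' :=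
  fun Ω' _ T w ξ h1 h2 h3 h4 => (h Ω' T w ξ h1 h2 h3 h4).trans hr

theorem Abs2.mono {Λ Ξ : Type} [Fintype Λ] [Fintype Ξ] {β : Type} {d : ℕ} {L : Law Λ}
    {bL : Λ → β} {D : Λ → Fin d → ℤ} {R : Law Ξ} {bR : Ξ → β} {Pi : Ξ → Fin d → ℤ}
    {r r' : ℝ} (h : Abs2 L bL D R bR Pi r) (hr : r ≤ r') : Abs2 L bL D R bR Pi r' :=
  fun Ω' _ T w ξ h1 h2 h3 h4 => (h Ω' T w ξ h1 h2 h3 h4).trans (by linarith)

/-- the errors of the iterated triples -/
def kk (K1 : ℕ) : ℕ → ℕ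
  | 0 => K1
  | n + 1 => 2 * kk K1 n + K1

/-- the errors of the iterated triples -/
noncomputable def ee (E1 : ℝ) : ℕ → ℝ
  | 0 => E1
  | n + 1 => 2 * ee E1 n + E1

theorem kk_le (K1 : ℕ) {r n : ℕ} (h : r ≤ n) : kk K1 r ≤ 2 ^ (n + 1) * K1 := by
  have h1 : ∀ r, kk K1 r + K1 = 2 ^ (r + 1) * K1 := by
    intro r
    induction r with
    | zero => simp [kk]; ring
    | succ r ih =>
      rw [kk, pow_succ, mul_assoc, mul_comm 2 K1, ← mul_assoc, ← ih]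
      ring
  have h2 : 2 ^ (r + 1) * K1 ≤ 2 ^ (n + 1) * K1 :=
    Nat.mul_le_mul_right _ (Nat.pow_le_pow_right (by norm_num) (by omega))
  have := h1 r
  omega

theorem ee_le {E1 : ℝ} (h0 : 0 ≤ E1) {r n : ℕ} (h : r ≤ n) : ee E1 r ≤ 2 ^ (n + 1) * E1 := by
  have h1 : ∀ r, ee E1 r + E1 = 2 ^ (r + 1) * E1 := by
    intro r
    induction r with
    | zero => simp [ee]; ring
    | succ r ih =>
      rw [ee, pow_succ, mul_assoc, mul_comm 2 E1, ← mul_assoc, ← ih]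
      ring
  have h2 : (2 : ℝ) ^ (r + 1) * E1 ≤ 2 ^ (n + 1) * E1 :=
    mul_le_mul_of_nonneg_right (pow_le_pow_right₀ (by norm_num) (by omega)) h0
  have := h1 r
  linarith

section

variable {Ω : Type} [Fintype Ω] {β κ : Type} {d : ℕ} {P : Law Ω} {b : Ω → β}
  {x : Ω → Fin d → ℤ} {K1 : ℕ} {E1 : ℝ}

theorem chain_pigeon (h3 : PTriple) (h5 : PTripleLink) (L : Link P b x K1 E1) (δ : ℝ) (n : ℕ) :
    (∃ r, r < n ∧ ∃ A : Link P b x (kk K1 r) (ee E1 r), ∃ T : Triple A L,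
      hc T.M (fun m => A.D (T.u m) + L.D (T.l m) + A.D (T.v m)) (fun m => b (A.s (T.u m))) ≤
        A.h + δ) ∨ (∃ A : Link P b x (kk K1 n) (ee E1 n), n * δ ≤ A.h) := by
  induction n with
  | zero =>
    refine Or.inr ⟨L, ?_⟩
    simp only [Nat.cast_zero, zero_mul]
    exact hc_nonneg _ _ _
  | succ n ih =>
    rcases ih with ⟨r, hr, h⟩ | ⟨A, hA⟩
    · exact Or.inl ⟨r, by omega, h⟩
    · obtain ⟨T⟩ := h3 A L
      by_cases hc1 : hc T.M (fun m => A.D (T.u m) + L.D (T.l m) + A.D (T.v m))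
          (fun m => b (A.s (T.u m))) ≤ A.h + δ
      · exact Or.inl ⟨n, by omega, A, T, hc1⟩
      · obtain ⟨A', hA'⟩ := h5 A L T
        have h1 : ((n + 1 : ℕ) : ℝ) * δ ≤ A'.h := by
          rw [hA']
          push_cast
          linarith [not_le.1 hc1]
        exact Or.inr ⟨A', h1⟩

theorem link_h_le {K : ℕ} {E : ℝ} (A : Link P b x K E) (θ : ℕ)
    (hr : ∀ ω ω', b ω = b ω' → ∀ c, |x ω c - x ω' c| ≤ 2 ^ θ) :
    A.h ≤ d * Real.log (2 * (2 ^ θ + K) + 1) := by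
  have h1 := hc_sub_le A.M A.D (fun _ _ => 0) (fun m => b (A.s m)) (2 ^ θ + K) (by
    intro m _ i
    have h2 := A.noise m i
    have h3 := hr (A.e m) (A.s m) (A.hb m).symm i
    push_cast
    rw [sub_zero]
    have : A.D m i = (x (A.e m) i - x (A.s m) i) - (x (A.e m) i - x (A.s m) i - A.D m i) := by
      ring
    rw [this]
    exact (abs_sub _ _).trans (add_le_add h3 h2))
  have h2 : hc A.M (fun (_ : A.Ωl) (_ : Fin d) => (0 : ℤ)) (fun m => b (A.s m)) = 0 :=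
    hc_zero A.M fun _ _ _ _ _ => rfl
  rw [h2, zero_add, Fintype.card_fin] at h1
  push_cast at h1
  exact h1

end

theorem range_bound (d θ KR k R : ℕ) (g : ℝ) (hg : 0 < g) (hk : (k : ℝ) ≤ KR) (hθ : (0 : ℝ) < θ)
    (hθ1 : d * Real.log (2 * KR + 3) ≤ θ) (hR : 16 * (d + 1) / g < R) :
    d * Real.log (2 * (2 ^ θ + k) + 1) < R * (g * θ / 16) := by
  have hp : (1 : ℝ) ≤ 2 ^ θ := one_le_pow₀ (by norm_num)
  have hKR0 : (0 : ℝ) ≤ KR := by positivity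
  have h9 : (2 * (2 ^ θ + k) + 1 : ℝ) ≤ 2 ^ θ * (2 * KR + 3) := by
    have h1 : (KR : ℝ) ≤ 2 ^ θ * KR := le_mul_of_one_le_left hKR0 hp
    linarith
  have h10 : Real.log (2 * (2 ^ θ + k) + 1 : ℝ) ≤ θ * Real.log 2 + Real.log (2 * KR + 3) := by
    refine (Real.log_le_log (by positivity) h9).trans ?_
    rw [Real.log_mul (by positivity) (by positivity), Real.log_pow]
  have h11 : Real.log 2 ≤ 1 := by
    have := Real.log_two_lt_d9
    linarith
  have h12 : (θ : ℝ) * Real.log 2 ≤ θ * 1 := mul_le_mul_of_nonneg_left h11 hθ.le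
  have h13 : (d : ℝ) * Real.log (2 * (2 ^ θ + k) + 1 : ℝ) ≤
      d * (θ + Real.log (2 * KR + 3)) :=
    mul_le_mul_of_nonneg_left (by linarith) (by positivity)
  have h15 : 16 * ((d : ℝ) + 1) * θ < R * g * θ := by
    rw [div_lt_iff₀ hg] at hR
    exact mul_lt_mul_of_pos_right hR hθ
  have h16 : (d : ℝ) * (θ + Real.log (2 * KR + 3)) = d * θ + d * Real.log (2 * KR + 3) := by ring
  linarith

/-- the final numerical inequalities -/
theorem num_bound (W E1 E e lg lK lk gθ δ : ℝ) (hW : 1 ≤ W) (hE1 : E1 = 6 * e + lg)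
    (hE10 : 0 ≤ E1) (hE : E ≤ W * E1) (hWe : W * e = gθ / 1000) (hlg : 0 ≤ lg) (hlk : lk ≤ lK)
    (he0 : 0 ≤ e) (hlk0 : 0 ≤ lk)
    (hδ : δ ≤ gθ / 16) (hθ2 : lK + (1 + 13 * W) * lg ≤ gθ / 8) :
    e + lk + lg + 2 * δ + 7 * E + 2 * E1 ≤ gθ ∧ 4 * δ + 9 * E + 4 * E1 ≤ gθ ∧
      δ + 2 * E + E1 ≤ gθ ∧ E + E1 ≤ gθ := by
  have h1 : E1 ≤ W * E1 := le_mul_of_one_le_left hE10 hW
  have h2 : W * E1 = 6 * (gθ / 1000) + W * lg := by
    rw [hE1, ← hWe]
    ring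
  have h3 : e ≤ W * e := le_mul_of_one_le_left he0 hW
  have h4 : 0 ≤ W * lg := by positivity
  have h5 : (1 + 13 * W) * lg = lg + 13 * (W * lg) := by ring
  rw [h5] at hθ2
  have h6 : 0 ≤ W * e := by positivity
  refine ⟨?_, ?_, ?_, ?_⟩ <;> linarith

/-- the chain from a triple -/
theorem mkChain (h4 : PFacts) (h6 : PAbsA) (h7 : PAbsB) {Ω : Type} [Fintype Ω] {β κ : Type}
    {d : ℕ} (P : Law Ω) (b : Ω → β) (q : Ω → κ) (x0 x φ : Ω → Fin d → ℤ) (N0 : ℕ) (ρ e : ℝ)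
    (hφ : ∀ ω ω', b ω = b ω' → q ω = q ω' → φ ω = φ ω')
    (herr : ∀ ω c, |x ω c - x0 ω c - φ ω c| ≤ N0) (hx : hc P x b ≤ ρ + e)
    {K K1 : ℕ} {E E1 : ℝ} (L : Link P b x K1 E1)
    (l0 : L.Ωl → Law.GT (fun ω => (x0 ω, b ω)) (fun ω => (x0 ω, b ω)))
    (hl0 : Smp L.M l0 (pairL P (fun ω => (x0 ω, b ω)))) (hls : ∀ m, L.s m = (l0 m).fst)
    (hlD : ∀ m, L.D m = φ (l0 m).snd - φ (l0 m).fst)
    (A : Link P b x K E) (T : Triple A L) (δ G : ℝ)
    (hδ : hc T.M (fun m => A.D (T.u m) + L.D (T.l m) + A.D (T.v m)) (fun m => b (A.s (T.u m))) ≤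
      A.h + δ)
    (g1 : e + d * Real.log (2 * K + 1) + d * Real.log (2 * N0 + 1) + 2 * δ + 7 * E + 2 * E1 ≤ G)
    (g2 : 4 * δ + 9 * E + 4 * E1 ≤ G) (g3 : δ + 2 * E + E1 ≤ G) (g4 : E + E1 ≤ G) :
    Nonempty (Chain P b q x0 (pairL P (fun ω => (x0 ω, b ω))) (fun l => b l.fst)
      (fun l => φ l.snd - φ l.fst) ρ G) := by
  obtain ⟨h', F, hcost⟩ := h4 A L T
  have hδ' : h' - A.h ≤ δ := by
    have := F.hS
    rw [this] at hδ
    linarith
  have hD : (fun m => φ (l0 (T.l m)).snd - φ (l0 (T.l m)).fst) = fun m => L.D (T.l m) :=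
    funext fun m => (hlD (T.l m)).symm
  exact ⟨{
    Ωm := T.Ωt
    fin := T.fin
    M := T.M
    s := fun m => A.s (T.u m)
    l := fun m => l0 (T.l m)
    Z := fun m => A.D (T.u m) + A.D (T.v m)
    Pi := fun m => - A.D (T.u m)
    smp_s := T.smp_u.comp A.smp_s
    smp_l := T.smp_l.comp hl0
    hb := fun m => by rw [T.hul m, hls]
    cost := hcost.trans (by linarith)
    costD := by
      rw [hD]
      refine le_trans ?_ g4
      refine le_trans ?_ F.iD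
      rw [mi_symm]
      refine mi_mono_left _ _ fun ω ω' _ _ e => ?_
      simp only [Prod.mk.injEq] at e
      rw [e.1.1, e.1.2]
    abs1 := by
      refine (h6 T.M (fun m => b (A.s (T.u m))) (fun m => q (A.s (T.u m)))
        (fun m => A.D (T.u m)) (fun m => L.D (T.l m)) (fun m => A.D (T.v m))
        (fun m => x0 (A.s (T.u m))) (fun m => x (A.s (T.u m))) (fun m => x (A.e (T.u m)))
        (fun m => φ (A.s (T.u m))) A.h h' E E1 ρ e K N0 F (fun m m' => hφ _ _)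
        (fun m => herr _) (fun m => A.noise _) ?_).mono (by linarith)
      have h8 := (T.smp_u.comp A.smp_e).hc x b
      rw [← h8] at hx
      have h9 : (fun m => b (A.e (T.u m))) = fun m => b (A.s (T.u m)) :=
        funext fun m => (A.hb (T.u m)).symm
      rw [h9] at hx
      exact hx
    abs2 := by
      have h8 := (h7 T.M (fun m => b (A.s (T.u m))) (fun m => A.D (T.u m)) (fun m => L.D (T.l m))
        (fun m => A.D (T.v m)) (fun m => x (A.s (T.u m))) A.h h' E E1 F).mono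
        (r' := G) (by linarith)
      rw [← hD] at h8
      exact h8 }⟩

/-- the chain argument -/
theorem chain_of (h2 : PBaseLink) (h3 : PTriple) (h4 : PFacts) (h5 : PTripleLink) (h6 : PAbsA)
    (h7 : PAbsB) : PChain := by
  intro d N0 g hg
  obtain ⟨R, hR⟩ := exists_nat_gt (16 * (d + 1) / g)
  obtain ⟨W, hW⟩ : ∃ W : ℝ, W = 2 ^ (R + 1) := ⟨_, rfl⟩
  have hW1 : 1 ≤ W := by
    rw [hW]
    exact one_le_pow₀ (by norm_num)
  obtain ⟨KR, hKR⟩ : ∃ KR : ℕ, KR = 2 ^ (R + 1) * (2 * N0) := ⟨_, rfl⟩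
  obtain ⟨lg, hlg⟩ : ∃ lg : ℝ, lg = d * Real.log (2 * N0 + 1) := ⟨_, rfl⟩
  have hlg0 : 0 ≤ lg := by
    have : (0 : ℝ) ≤ Real.log (2 * N0 + 1) := Real.log_nonneg (by
      have : (0 : ℝ) ≤ N0 := by positivity
      linarith)
    rw [hlg]
    positivity
  obtain ⟨lK, hlK⟩ : ∃ lK : ℝ, lK = d * Real.log (2 * KR + 1) := ⟨_, rfl⟩
  obtain ⟨θ0, hθ0⟩ := exists_nat_gt (max (max (d * Real.log (2 * KR + 3))
    (8 * (lK + (1 + 13 * W) * lg) / g)) 0)
  have hε : 0 < g / (W * 1000) := by positivity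
  refine ⟨g / (W * 1000), hε, θ0, ?_⟩
  intro θ hθ Ω _ P β κ b q x0 x φ ρ hφ herr hrng hx0 hx hlow
  have hθr : (θ0 : ℝ) ≤ θ := by exact_mod_cast hθ
  have hθpos : (0 : ℝ) < θ := lt_of_lt_of_le (lt_of_le_of_lt (le_max_right _ _) hθ0) hθr
  have hθ0' := ((le_max_left _ _).trans hθ0.le).trans hθr
  have hθ1 : d * Real.log (2 * KR + 3) ≤ θ := (le_max_left _ _).trans hθ0'
  have hθ2 : lK + (1 + 13 * W) * lg ≤ g * θ / 8 := by
    have h1 : 8 * (lK + (1 + 13 * W) * lg) / g ≤ θ := (le_max_right _ _).trans hθ0'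
    rw [div_le_iff₀ hg] at h1
    linarith
  obtain ⟨e, he⟩ : ∃ e : ℝ, e = g / (W * 1000) * θ := ⟨_, rfl⟩
  rw [← he] at hx0 hx hlow
  obtain ⟨L, l0, hl0, hls, hle, hlD⟩ := h2 P b q x0 x φ N0 ρ e hφ herr hx0 hx hlow
  have he0 : 0 ≤ e := by rw [he]; positivity
  have hWe : W * e = g * θ / 1000 := by
    rw [he]
    field_simp
  have hE10 : 0 ≤ 6 * e + d * Real.log (2 * N0 + 1) := by
    rw [← hlg]
    positivity
  rcases chain_pigeon h3 h5 L (g * θ / 16) R with ⟨r, hr, A, T, hT⟩ | ⟨A, hA⟩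
  · have hk : kk (2 * N0) r ≤ KR := by
      rw [hKR]
      exact kk_le (2 * N0) hr.le
    have hkr : ((kk (2 * N0) r : ℕ) : ℝ) ≤ KR := by exact_mod_cast hk
    have hE : ee (6 * e + d * Real.log (2 * N0 + 1)) r ≤ W * (6 * e + d * Real.log (2 * N0 + 1)) := by
      rw [hW]
      exact ee_le hE10 hr.le
    have hk0 : (0 : ℝ) ≤ (kk (2 * N0) r : ℕ) := by positivity
    have hlk : d * Real.log (2 * (kk (2 * N0) r : ℕ) + 1) ≤ lK := by
      rw [hlK]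
      exact mul_le_mul_of_nonneg_left (Real.log_le_log (by linarith) (by linarith)) (by positivity)
    have hlk0 : 0 ≤ d * Real.log (2 * (kk (2 * N0) r : ℕ) + 1) := by
      have := Real.log_nonneg (show (1 : ℝ) ≤ 2 * (kk (2 * N0) r : ℕ) + 1 by linarith)
      positivity
    obtain ⟨n1, n2, n3, n4⟩ := num_bound W (6 * e + d * Real.log (2 * N0 + 1))
      (ee (6 * e + d * Real.log (2 * N0 + 1)) r) e lg lK
      (d * Real.log (2 * (kk (2 * N0) r : ℕ) + 1)) (g * θ) (g * θ / 16) hW1 (by rw [hlg]) hE10 hE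
      hWe hlg0 hlk he0 hlk0 le_rfl hθ2
    rw [hlg] at n1
    exact mkChain h4 h6 h7 P b q x0 x φ N0 ρ e hφ herr hx L l0 hl0 hls hlD A T (g * θ / 16)
      (g * θ) hT n1 n2 n3 n4
  · exfalso
    have h8 := link_h_le A θ hrng
    have hk : ((kk (2 * N0) R : ℕ) : ℝ) ≤ KR := by
      rw [hKR]
      exact_mod_cast kk_le (2 * N0) (le_refl R)
    have h9 := range_bound d θ KR (kk (2 * N0) R) R g hg hk hθpos hθ1 hR
    linarith

end Vale.Agent.P127.Stk.Abs
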