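import Vale.Agent.P127.Stk.Abs.Defs
import Vale.Agent.P127.Stk.LibEnt
import Vale.Agent.P127.Stk.LibDom
import Vale.Agent.P127.Stk.Add

/-!
# P127 / Stk / Abs : samples and extensions
-/

namespace Vale.Agent.P127.Stk.Abs

open Finset Vale.Agent.P127 Vale.Agent.P127.Stk

variable {Ω Ω' Ω'' : Type} [Fintype Ω] [Fintype Ω'] [Fintype Ω''] {S S' T U V : Type*}

theorem Smp.push {Q : Law Ω'} {p : Ω' → Ω} {P : Law Ω} (h : Smp Q p P) :
    Vale.Agent.P127.Stk.push Q p = P := law_ext fun ω => h ω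

theorem Smp.pr {Q : Law Ω'} {p : Ω' → Ω} {P : Law Ω} (h : Smp Q p P) (f : Ω → S) (x : S) :
    Q.pr (fun ω => f (p ω)) x = P.pr f x := by
  rw [← h.push, push_pr]
  rfl

theorem Smp.H {Q : Law Ω'} {p : Ω' → Ω} {P : Law Ω} (h : Smp Q p P) (f : Ω → S) :
    Q.H (fun ω => f (p ω)) = P.H f := by
  rw [← h.push, push_H]
  rfl

theorem Smp.hc {Q : Law Ω'} {p : Ω' → Ω} {P : Law Ω} (h : Smp Q p P) (f : Ω → S) (g : Ω → T) :
    hc Q (fun ω => f (p ω)) (fun ω => g (p ω)) = hc P f g := by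
  rw [← h.push, push_hc]
  rfl

theorem Smp.mi {Q : Law Ω'} {p : Ω' → Ω} {P : Law Ω} (h : Smp Q p P) (f : Ω → S) (g : Ω → T)
    (k : Ω → U) : mi Q (fun ω => f (p ω)) (fun ω => g (p ω)) (fun ω => k (p ω)) = mi P f g k := by
  unfold Vale.Agent.P127.Stk.mi
  rw [h.hc f k, h.hc f (fun ω => (g ω, k ω))]

theorem Smp.comp {Q : Law Ω''} {p : Ω'' → Ω'} {P : Law Ω'} {r : Ω' → Ω} {R : Law Ω}
    (h : Smp Q p P) (h' : Smp P r R) : Smp Q (fun ω => r (p ω)) R := fun ω => by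
  rw [h.pr r ω]
  exact h' ω

theorem Smp.refl (P : Law Ω) : Smp P (fun ω => ω) P := pr_id P

/-- the information in terms of entropies -/
theorem mi_eq (P : Law Ω) (X : Ω → S) (Y : Ω → T) (Z : Ω → U) :
    mi P X Y Z = P.H (fun ω => (X ω, Z ω)) + P.H (fun ω => (Y ω, Z ω)) -
      P.H (fun ω => (X ω, Y ω, Z ω)) - P.H Z := by
  unfold mi hc
  ring

/-- data processing, with the condition enlarged by functions of the two sides -/
theorem mi_zero_of {P : Law Ω} {X : Ω → S} {Y : Ω → T} {Z : Ω → U} {X' : Ω → S'} {Y' : Ω → V}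
    (h : mi P X Y Z = 0) (hX : ∀ ω ω', X ω = X ω' → Z ω = Z ω' → X' ω = X' ω')
    (hY : ∀ ω ω', Y ω = Y ω' → Z ω = Z ω' → Y' ω = Y' ω') : mi P X' Y' Z = 0 := by
  refine le_antisymm ?_ (mi_nonneg P _ _ _)
  rw [← h]
  refine (mi_mono_left P Y' (X' := X) ?_).trans (mi_mono_right P X (Y' := Y) ?_)
  · intro ω ω' _ _ e
    simp only [Prod.mk.injEq] at e
    exact hX ω ω' e.1 e.2
  · intro ω ω' _ _ e
    simp only [Prod.mk.injEq] at e
    exact hY ω ω' e.1 e.2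

/-- a function of `X` may be moved to the condition -/
theorem mi_zero_cond {P : Law Ω} {X : Ω → S} {Y : Ω → T} {Z : Ω → U} {W : Ω → V}
    (h : mi P X Y Z = 0) (hW : ∀ ω ω', X ω = X ω' → Z ω = Z ω' → W ω = W ω') :
    mi P X Y (fun ω => (W ω, Z ω)) = 0 := by
  refine le_antisymm ?_ (mi_nonneg P _ _ _)
  rw [← h]
  exact mi_cond_le P Y Z fun ω ω' _ _ e => by
    simp only [Prod.mk.injEq] at e
    exact hW ω ω' e.1 e.2

/-- existence of conditionally independent extensions -/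
theorem pext : PExt := by
  intro Ω₁ Ω₂ _ _ γ P₁ P₂ c₁ c₂ h
  refine ⟨Law.GT c₁ c₂, inferInstance, Law.glue P₁ P₂ c₁ c₂ h, fun p => p.fst, fun p => p.snd,
    fun ω => ?_, fun ω => ?_, fun ω => ω.eq, ?_⟩
  · rw [← pr_id P₁ ω]
    exact Law.glue_pr h id ω
  · rw [← pr_id P₂ ω]
    exact Law.glue_pr' h id ω
  · have h1 := Law.glue_indep h (fun a => a) (fun b => b)
    rw [mi_eq]
    have h2 : (Law.glue P₁ P₂ c₁ c₂ h).H (fun p => (p.fst, c₁ p.fst)) = P₁.H (fun a => (a, c₁ a)) :=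
      Law.glue_H h (fun a => (a, c₁ a))
    have h3 : (Law.glue P₁ P₂ c₁ c₂ h).H (fun p => (p.snd, c₁ p.fst)) = P₂.H (fun a => (a, c₂ a)) := by
      rw [← Law.glue_H' h (fun a => (a, c₂ a))]
      refine Law.H_congr _ fun ω ω' => ?_
      simp only [Prod.mk.injEq, ω.eq, ω'.eq]
    have h4 : (Law.glue P₁ P₂ c₁ c₂ h).H (fun p => c₁ p.fst) = P₁.H c₁ := Law.glue_H h c₁
    rw [h2, h3, h4, h1]
    ring

end Vale.Agent.P127.Stk.Abs
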