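import Vale.Agent.P127.Stk.Abs.ChainDefs
import Vale.Agent.P127.Stk.Abs.Basic

/-!
# P127 / Stk / Abs : `x0` absorbs `- P`
-/

namespace Vale.Agent.P127.Stk.Abs

open Finset Vale.Agent.P127 Vale.Agent.P127.Stk

/-- the conditional entropy depends only on the partition given by the condition -/
theorem absA_cond {Ω : Type} [Fintype Ω] {S T U : Type*} (P : Law Ω) (X : Ω → S) {Y : Ω → T}
    {Y' : Ω → U} (h : ∀ ω ω', Y ω = Y ω' ↔ Y' ω = Y' ω') : hc P X Y = hc P X Y' :=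
  le_antisymm (Add.hc_anti P fun ω ω' e => (h ω ω').1 e)
    (Add.hc_anti P fun ω ω' e => (h ω ω').2 e)

/-- A6 -/
theorem pabsA : PAbsA := by
  intro Ωt _ β κ d M bt qs P D Q x0s xs xe φs h h' E E1 ρ e K N0 hF hφ hn0 hn hxe
  intro Ω' _ T w ξ hw hξ hbZ hci
  have hb : ∀ ω, bt (w ω) = bt (ξ ω) := fun ω => (Prod.mk.injEq _ _ _ _ ▸ hbZ ω).1
  have hZ : ∀ ω, P (w ω) + Q (w ω) = P (ξ ω) + Q (ξ ω) :=
    fun ω => (Prod.mk.injEq _ _ _ _ ▸ hbZ ω).2
  have hbf : (fun ω => bt (ξ ω)) = (fun ω => bt (w ω)) := funext fun ω => (hb ω).symm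
  -- entropies of the two samples
  have hP1 : hc T (fun ω => P (w ω)) (fun ω => bt (w ω)) = h := (hw.hc P bt).trans hF.hP
  have hQ1 : hc T (fun ω => Q (w ω)) (fun ω => bt (w ω)) = h := (hw.hc Q bt).trans hF.hQ
  have hP2 : hc T (fun ω => P (ξ ω)) (fun ω => bt (w ω)) = h := by
    rw [← hbf]; exact (hξ.hc P bt).trans hF.hP
  have hQ2 : hc T (fun ω => Q (ξ ω)) (fun ω => bt (w ω)) = h := by
    rw [← hbf]; exact (hξ.hc Q bt).trans hF.hQ
  have hZb : hc T (fun ω => P (w ω) + Q (w ω)) (fun ω => bt (w ω)) ≤ h' + E + E1 :=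
    (hw.hc (fun m => P m + Q m) bt).le.trans hF.hPQ
  have hI1 : mi T (fun ω => P (w ω)) (fun ω => Q (w ω)) (fun ω => bt (w ω)) ≤ E :=
    (hw.mi P Q bt).le.trans hF.iPQ
  have hIx : mi T (fun ω => (P (w ω), Q (w ω))) (fun ω => xs (w ω)) (fun ω => bt (w ω)) ≤ 2 * E :=
    (hw.mi (fun m => (P m, Q m)) xs bt).le.trans hF.ix
  have hxe' : hc T (fun ω => xe (w ω)) (fun ω => bt (w ω)) ≤ ρ + e := (hw.hc xe bt).le.trans hxe
  have hPQ1 : 2 * h - E ≤ hc T (fun ω => (P (w ω), Q (w ω))) (fun ω => bt (w ω)) := by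
    have h1 := hc_pair T (fun ω => Q (w ω)) (fun ω => P (w ω)) (fun ω => bt (w ω))
    have h2 : hc T (fun ω => (P (w ω), Q (w ω))) (fun ω => bt (w ω)) =
        hc T (fun ω => (Q (w ω), P (w ω))) (fun ω => bt (w ω)) :=
      Add.hc_eq T fun ω ω' _ => by simp only [Prod.mk.injEq]; tauto
    have h3 : mi T (fun ω => P (w ω)) (fun ω => Q (w ω)) (fun ω => bt (w ω)) =
      hc T (fun ω => P (w ω)) (fun ω => bt (w ω)) -
        hc T (fun ω => P (w ω)) (fun ω => (Q (w ω), bt (w ω))) := rfl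
    linarith
  have hPQ2 : hc T (fun ω => (P (ξ ω), Q (ξ ω))) (fun ω => bt (w ω)) =
      hc T (fun ω => (P (w ω), Q (w ω))) (fun ω => bt (w ω)) := by
    rw [hw.hc (fun m => (P m, Q m)) bt, ← hbf, hξ.hc (fun m => (P m, Q m)) bt]
  have hci' : mi T w ξ (fun ω => (bt (w ω), P (w ω) + Q (w ω))) = 0 := hci
  -- the law of `(P, Q)` given `(b, Z)`
  have hA : hc T (fun ω => (P (w ω), Q (w ω))) (fun ω => (bt (w ω), P (w ω) + Q (w ω))) =
      hc T (fun ω => (P (w ω), Q (w ω))) (fun ω => bt (w ω)) -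
        hc T (fun ω => P (w ω) + Q (w ω)) (fun ω => bt (w ω)) := by
    have h1 := hc_pair T (fun ω => P (w ω) + Q (w ω)) (fun ω => (P (w ω), Q (w ω)))
      (fun ω => bt (w ω))
    have h2 : hc T (fun ω => (P (w ω) + Q (w ω), (P (w ω), Q (w ω)))) (fun ω => bt (w ω)) =
        hc T (fun ω => (P (w ω), Q (w ω))) (fun ω => bt (w ω)) :=
      Add.hc_eq T fun ω ω' _ => by
        simp only [Prod.mk.injEq]
        constructor
        · rintro ⟨e1, e2⟩; exact ⟨by rw [e1, e2], e1, e2⟩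
        · rintro ⟨_, e1, e2⟩; exact ⟨e1, e2⟩
    have h3 := absA_cond T (fun ω => (P (w ω), Q (w ω)))
      (Y := fun ω => (P (w ω) + Q (w ω), bt (w ω)))
      (Y' := fun ω => (bt (w ω), P (w ω) + Q (w ω)))
      (fun ω ω' => by simp only [Prod.mk.injEq]; tauto)
    linarith
  have hB : hc T (fun ω => P (w ω)) (fun ω => (bt (w ω), P (w ω) + Q (w ω))) =
      hc T (fun ω => (P (w ω), Q (w ω))) (fun ω => (bt (w ω), P (w ω) + Q (w ω))) :=
    Add.hc_eq T fun ω ω' e => by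
      simp only [Prod.mk.injEq] at e ⊢
      constructor
      · rintro ⟨e1, e2⟩; exact e1
      · intro e1
        refine ⟨e1, ?_⟩
        have h1 := e.2
        rw [e1] at h1
        exact add_left_cancel h1
  -- step (i)
  have hmi : mi T (fun ω => (P (w ω), Q (w ω))) (fun ω => (P (ξ ω), Q (ξ ω)))
      (fun ω => (bt (w ω), P (w ω) + Q (w ω))) = 0 :=
    mi_zero_of hci' (fun ω ω' e _ => by rw [e]) (fun ω ω' e _ => by rw [e])
  have hmi' : hc T (fun ω => (P (w ω), Q (w ω))) (fun ω => (bt (w ω), P (w ω) + Q (w ω))) -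
      hc T (fun ω => (P (w ω), Q (w ω)))
        (fun ω => ((P (ξ ω), Q (ξ ω)), (bt (w ω), P (w ω) + Q (w ω)))) = 0 := hmi
  have hC : hc T (fun ω => (P (w ω), Q (w ω))) (fun ω => ((P (ξ ω), Q (ξ ω)), bt (w ω))) =
      hc T (fun ω => (P (w ω), Q (w ω)))
        (fun ω => ((P (ξ ω), Q (ξ ω)), (bt (w ω), P (w ω) + Q (w ω)))) :=
    absA_cond T _ fun ω ω' => by
      simp only [Prod.mk.injEq, hZ]
      constructor
      · rintro ⟨⟨e1, e2⟩, e3⟩; exact ⟨⟨e1, e2⟩, e3, by rw [e1, e2]⟩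
      · rintro ⟨⟨e1, e2⟩, e3, _⟩; exact ⟨⟨e1, e2⟩, e3⟩
  have hch := Add.hc_chain T (fun ω => (P (w ω), Q (w ω))) (fun ω => (P (ξ ω), Q (ξ ω)))
    (fun ω => bt (w ω))
  have hbsg := Add.bsg T (fun ω => bt (w ω)) (δ := 0) (fun ω => P (w ω)) (fun ω => Q (w ω))
    (fun ω => P (ξ ω)) (fun ω => Q (ξ ω)) hZ (by linarith)
  have h1 : hc T (fun ω => P (w ω) - Q (ξ ω)) (fun ω => bt (w ω)) ≤ h' + 3 * E + E1 := by
    linarith
  have h2 : hc T (fun ω => - P (ξ ω) - P (w ω)) (fun ω => (bt (w ω), P (w ω) + Q (w ω))) ≤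
      h' + 3 * E + E1 := by
    refine le_trans (le_of_eq ?_) ((Add.hc_anti T (X := fun ω => P (w ω) - Q (ξ ω))
      (C := fun ω => (bt (w ω), P (w ω) + Q (w ω))) (D := fun ω => bt (w ω))
      (fun ω ω' e => by simp only [Prod.mk.injEq] at e; exact e.1)).trans h1)
    refine Add.hc_eq T fun ω ω' e => ?_
    simp only [Prod.mk.injEq] at e
    have hh : ∀ ω, P (w ω) - Q (ξ ω) = (P (ξ ω) + P (w ω)) - (P (w ω) + Q (w ω)) := fun ω => by
      rw [hZ ω]; abel
    have hg : ∀ ω, - P (ξ ω) - P (w ω) = - (P (ξ ω) + P (w ω)) := fun ω => by abel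
    rw [hh ω, hh ω', hg ω, hg ω', e.2, sub_left_inj, neg_inj]
  -- step (ii)
  have h3 : 2 * h - h' - 2 * E - E1 ≤
      hc T (fun ω => P (w ω)) (fun ω => (bt (w ω), P (w ω) + Q (w ω))) := by
    linarith
  -- step (iii)
  have hsw := Add.swap T (fun ω => xs (w ω)) (fun ω => P (w ω)) (fun ω => - P (ξ ω))
    (fun ω => (bt (w ω), P (w ω) + Q (w ω)))
  have h4 : hc T (fun ω => xs (w ω) + P (w ω)) (fun ω => (bt (w ω), P (w ω) + Q (w ω))) ≤
      ρ + e + d * Real.log (2 * K + 1) := by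
    refine (Add.hc_anti T (X := fun ω => xs (w ω) + P (w ω))
      (C := fun ω => (bt (w ω), P (w ω) + Q (w ω))) (D := fun ω => bt (w ω))
      (fun ω ω' e => by simp only [Prod.mk.injEq] at e; exact e.1)).trans ?_
    have h5 := hc_sub_le T (fun ω => xs (w ω) + P (w ω)) (fun ω => xe (w ω))
      (fun ω => bt (w ω)) K (fun ω _ c => by
        have := hn (w ω) c
        rw [abs_sub_comm] at this
        simp only [Pi.add_apply]
        have h6 : xs (w ω) c + P (w ω) c - xe (w ω) c = P (w ω) c - (xe (w ω) c - xs (w ω) c) := by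
          ring
        rw [h6]
        exact this)
    rw [Fintype.card_fin] at h5
    linarith
  have h5 : hc T (fun ω => P (w ω)) (fun ω => (bt (w ω), P (w ω) + Q (w ω))) - 2 * E ≤
      hc T (fun ω => P (w ω)) (fun ω => (xs (w ω), - P (ξ ω), (bt (w ω), P (w ω) + Q (w ω)))) := by
    have k1 : mi T w ξ (fun ω => (xs (w ω), (bt (w ω), P (w ω) + Q (w ω)))) = 0 :=
      mi_zero_cond hci' (fun ω ω' e _ => by rw [e])
    have k2 : mi T (fun ω => P (w ω)) (fun ω => - P (ξ ω))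
        (fun ω => (xs (w ω), (bt (w ω), P (w ω) + Q (w ω)))) = 0 :=
      mi_zero_of k1 (fun ω ω' e _ => by rw [e]) (fun ω ω' e _ => by rw [e])
    have k3 : hc T (fun ω => P (w ω)) (fun ω => (xs (w ω), (bt (w ω), P (w ω) + Q (w ω)))) -
        hc T (fun ω => P (w ω))
          (fun ω => (- P (ξ ω), (xs (w ω), (bt (w ω), P (w ω) + Q (w ω))))) = 0 := k2
    have k4 : hc T (fun ω => P (w ω))
          (fun ω => (- P (ξ ω), (xs (w ω), (bt (w ω), P (w ω) + Q (w ω))))) =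
        hc T (fun ω => P (w ω))
          (fun ω => (xs (w ω), - P (ξ ω), (bt (w ω), P (w ω) + Q (w ω)))) :=
      absA_cond T _ fun ω ω' => by simp only [Prod.mk.injEq]; tauto
    have k5 : mi T (fun ω => P (w ω)) (fun ω => xs (w ω))
        (fun ω => (bt (w ω), P (w ω) + Q (w ω))) ≤ 2 * E := by
      refine le_trans ?_ hIx
      refine le_trans (mi_mono_left T (X' := fun ω => (P (w ω), Q (w ω))) _
        (fun ω ω' _ _ e => by simp only [Prod.mk.injEq] at e; exact e.1.1)) ?_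
      have k6 := mi_cond_le T (X := fun ω => (P (w ω), Q (w ω))) (fun ω => xs (w ω))
        (W := fun ω => P (w ω) + Q (w ω)) (fun ω => bt (w ω))
        (fun ω ω' _ _ e => by
          simp only [Prod.mk.injEq] at e
          show P (w ω) + Q (w ω) = P (w ω') + Q (w ω')
          rw [e.1.1, e.1.2])
      refine le_trans (le_of_eq ?_) k6
      exact mi_congr_cond T _ _ (fun ω ω' _ _ e => by simp only [Prod.mk.injEq] at e ⊢; tauto)
        (fun ω ω' _ _ e => by simp only [Prod.mk.injEq] at e ⊢; tauto)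
    have k7 : mi T (fun ω => P (w ω)) (fun ω => xs (w ω))
        (fun ω => (bt (w ω), P (w ω) + Q (w ω))) =
      hc T (fun ω => P (w ω)) (fun ω => (bt (w ω), P (w ω) + Q (w ω))) -
        hc T (fun ω => P (w ω)) (fun ω => (xs (w ω), (bt (w ω), P (w ω) + Q (w ω)))) := rfl
    linarith
  have h6 : hc T (fun ω => xs (w ω) + - P (ξ ω)) (fun ω => (bt (w ω), P (w ω) + Q (w ω))) ≤
      ρ + e + d * Real.log (2 * K + 1) + 2 * (h' - h) + 7 * E + 2 * E1 := by
    linarith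
  -- step (iv)
  have h7 := hc_sub_le T (fun ω => x0s (w ω) + - P (ξ ω))
    (fun ω => xs (w ω) - φs (w ω) + - P (ξ ω))
    (fun ω => (qs (w ω), (bt (w ω), P (w ω) + Q (w ω)))) N0 (fun ω _ c => by
      have := hn0 (w ω) c
      rw [abs_sub_comm] at this
      simp only [Pi.add_apply, Pi.sub_apply, Pi.neg_apply]
      have h8 : x0s (w ω) c + - P (ξ ω) c - (xs (w ω) c - φs (w ω) c + - P (ξ ω) c) =
        φs (w ω) c - (xs (w ω) c - x0s (w ω) c) := by ring
      rw [h8]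
      exact this)
  rw [Fintype.card_fin] at h7
  have h8 : hc T (fun ω => xs (w ω) - φs (w ω) + - P (ξ ω))
      (fun ω => (qs (w ω), (bt (w ω), P (w ω) + Q (w ω)))) =
      hc T (fun ω => xs (w ω) + - P (ξ ω))
      (fun ω => (qs (w ω), (bt (w ω), P (w ω) + Q (w ω)))) :=
    Add.hc_eq T fun ω ω' e => by
      simp only [Prod.mk.injEq] at e
      have h9 := hφ (w ω) (w ω') e.2.1 e.1
      have h10 : ∀ ω, xs (w ω) - φs (w ω) + - P (ξ ω) = xs (w ω) + - P (ξ ω) - φs (w ω) :=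
        fun ω => by abel
      rw [h10 ω, h10 ω', h9, sub_left_inj]
  have h9 : hc T (fun ω => xs (w ω) + - P (ξ ω))
      (fun ω => (qs (w ω), (bt (w ω), P (w ω) + Q (w ω)))) ≤
      hc T (fun ω => xs (w ω) + - P (ξ ω)) (fun ω => (bt (w ω), P (w ω) + Q (w ω))) :=
    Add.hc_anti T fun ω ω' e => by
      simp only [Prod.mk.injEq] at e ⊢
      exact e.2
  show hc T (fun ω => x0s (w ω) + - P (ξ ω))
    (fun ω => (qs (w ω), (bt (w ω), P (w ω) + Q (w ω)))) ≤ _
  linarith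

end Vale.Agent.P127.Stk.Abs
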