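import Vale.Agent.P127.Stk.Abs.ChainDefs
import Vale.Agent.P127.Stk.Abs.Basic

/-!
# P127 / Stk / Abs : the base link
-/

namespace Vale.Agent.P127.Stk.Abs

open Finset Vale.Agent.P127 Vale.Agent.P127.Stk

variable {Ω : Type} [Fintype Ω] {β κ γ : Type} {d : ℕ}

theorem pairL_fst (P : Law Ω) (c : Ω → γ) : Smp (pairL P c) (fun p => p.fst) P := fun ω => by
  rw [← pr_id P ω]
  exact Law.glue_pr (fun _ => rfl) id ω

theorem pairL_snd (P : Law Ω) (c : Ω → γ) : Smp (pairL P c) (fun p => p.snd) P := fun ω => by
  rw [← pr_id P ω]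
  exact Law.glue_pr' (fun _ => rfl) id ω

theorem pairL_ci (P : Law Ω) (c : Ω → γ) :
    mi (pairL P c) (fun p => p.fst) (fun p => p.snd) (fun p => c p.fst) = 0 := by
  have h1 := Law.glue_indep (P := P) (Q := P) (X₁ := c) (X₂ := c) (fun _ => rfl) (fun a => a)
    (fun b => b)
  rw [mi_eq]
  have h2 : (pairL P c).H (fun p => (p.fst, c p.fst)) = P.H (fun a => (a, c a)) :=
    (pairL_fst P c).H (fun a => (a, c a))
  have h3 : (pairL P c).H (fun p => (p.snd, c p.fst)) = P.H (fun a => (a, c a)) := by
    rw [← (pairL_snd P c).H (fun a => (a, c a))]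
    refine Law.H_congr _ fun ω ω' => ?_
    simp only [Prod.mk.injEq, ω.eq, ω'.eq]
  have h4 : (pairL P c).H (fun p => c p.fst) = P.H c := (pairL_fst P c).H c
  have h5 : (pairL P c).H (fun p => (p.fst, p.snd, c p.fst)) =
      P.H (fun a => (a, c a)) + P.H (fun a => (a, c a)) - P.H c := h1
  rw [h2, h3, h4, h5]
  ring

theorem pbaseLink : PBaseLink := by
  intro Ω _ β κ d P b q x0 x φ N0 ρ e hφ herr hx0 hx hlow
  have hs := pairL_fst P (fun ω => (x0 ω, b ω))
  have he := pairL_snd P (fun ω => (x0 ω, b ω))
  have hci := pairL_ci P (fun ω => (x0 ω, b ω))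
  have hbeq : ∀ p : Law.GT (fun ω => (x0 ω, b ω)) (fun ω => (x0 ω, b ω)),
      b p.fst = b p.snd := fun p => (Prod.mk.inj p.eq).2
  have hxeq : ∀ p : Law.GT (fun ω => (x0 ω, b ω)) (fun ω => (x0 ω, b ω)),
      x0 p.fst = x0 p.snd := fun p => (Prod.mk.inj p.eq).1
  refine ⟨{
    Ωl := Law.GT (fun ω => (x0 ω, b ω)) (fun ω => (x0 ω, b ω))
    fin := inferInstance
    M := pairL P (fun ω => (x0 ω, b ω))
    s := fun p => p.fst
    e := fun p => p.snd
    D := fun p => φ p.snd - φ p.fst
    smp_s := hs
    smp_e := he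
    hb := hbeq
    noise := ?_
    info := ?_ }, fun p => p, ?_, fun _ => rfl, fun _ => rfl, fun _ => rfl⟩
  · intro p c
    have h1 := abs_le.1 (herr p.fst c)
    have h2 := abs_le.1 (herr p.snd c)
    have h3 := congrFun (hxeq p) c
    simp only [Pi.sub_apply]
    rw [abs_le]
    push_cast
    constructor <;> linarith [h1.1, h1.2, h2.1, h2.2]
  · set M := pairL P (fun ω => (x0 ω, b ω)) with hM
    -- D is a function of (q s, q e, b)
    have h1 : mi M (fun p => φ p.snd - φ p.fst) (fun p => x p.fst) (fun p => b p.fst) ≤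
        mi M (fun p => (q p.fst, q p.snd)) (fun p => x p.fst) (fun p => b p.fst) := by
      refine mi_mono_left M _ ?_
      intro p p' _ _ e
      simp only [Prod.mk.injEq] at e
      show φ p.snd - φ p.fst = φ p'.snd - φ p'.fst
      rw [hφ p.fst p'.fst e.2 e.1.1, hφ p.snd p'.snd (by rw [← hbeq, ← hbeq, e.2]) e.1.2]
    have h2 : mi M (fun p => (q p.fst, q p.snd)) (fun p => x p.fst) (fun p => b p.fst) =
        hc M (fun p => x p.fst) (fun p => b p.fst) -
          hc M (fun p => x p.fst) (fun p => ((q p.fst, q p.snd), b p.fst)) := by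
      rw [mi_symm]
      rfl
    have h3 : hc M (fun p => x p.fst) (fun p => b p.fst) = hc P x b := hs.hc x b
    -- x0 = x - φ - noise
    have h4 : hc M (fun p => x0 p.fst) (fun p => ((q p.fst, q p.snd), b p.fst)) ≤
        hc M (fun p => x p.fst - φ p.fst) (fun p => ((q p.fst, q p.snd), b p.fst)) +
          d * Real.log (2 * N0 + 1) := by
      have := hc_sub_le M (fun p => x0 p.fst) (fun p => x p.fst - φ p.fst)
        (fun p => ((q p.fst, q p.snd), b p.fst)) N0 (fun p _ i => by
          have h := abs_le.1 (herr p.fst i)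
          simp only [Pi.sub_apply]
          rw [abs_le]
          constructor <;> linarith [h.1, h.2])
      rw [Fintype.card_fin] at this
      exact this
    have h5 : hc M (fun p => x p.fst - φ p.fst) (fun p => ((q p.fst, q p.snd), b p.fst)) =
        hc M (fun p => x p.fst) (fun p => ((q p.fst, q p.snd), b p.fst)) := by
      refine (Add.hc_eq M fun p p' e => ?_).symm
      simp only [Prod.mk.injEq] at e
      rw [hφ p.fst p'.fst e.2 e.1.1]
      exact sub_left_inj
    -- information of (q, q') with x0
    have h6 : mi M (fun p => x0 p.fst) (fun p => (q p.fst, q p.snd)) (fun p => b p.fst) ≤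
        2 * (hc P x0 b - hc P x0 (fun ω => (q ω, b ω))) := by
      have a1 : mi M (fun p => x0 p.fst) (fun p => q p.fst) (fun p => b p.fst) =
          hc P x0 b - hc P x0 (fun ω => (q ω, b ω)) := hs.mi x0 q b
      have a2 : mi M (fun p => x0 p.fst) (fun p => q p.snd) (fun p => b p.fst) =
          hc P x0 b - hc P x0 (fun ω => (q ω, b ω)) := by
        have := he.mi x0 q b
        simp only [← hbeq, ← hxeq] at this
        exact this
      rw [mi_pair]
      have a3 : mi M (fun p => x0 p.fst) (fun p => q p.snd) (fun p => (q p.fst, b p.fst)) ≤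
          mi M (fun p => x0 p.fst) (fun p => q p.snd) (fun p => b p.fst) := by
        -- mi(q'; (x0,q) | b) = mi(q';x0|b) + mi(q';q|x0,b) = mi(q';x0|b)
        have b1 : mi M (fun p => q p.snd) (fun p => (x0 p.fst, q p.fst)) (fun p => b p.fst) =
            mi M (fun p => q p.snd) (fun p => x0 p.fst) (fun p => b p.fst) +
            mi M (fun p => q p.snd) (fun p => q p.fst) (fun p => (x0 p.fst, b p.fst)) :=
          mi_pair M _ _ _ _
        have b2 : mi M (fun p => q p.snd) (fun p => q p.fst) (fun p => (x0 p.fst, b p.fst)) = 0 := by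
          rw [mi_symm]
          exact mi_zero_of hci (fun p p' e _ => by rw [e]) (fun p p' e _ => by rw [e])
        have b3 : mi M (fun p => q p.snd) (fun p => (q p.fst, x0 p.fst)) (fun p => b p.fst) =
            mi M (fun p => q p.snd) (fun p => q p.fst) (fun p => b p.fst) +
            mi M (fun p => q p.snd) (fun p => x0 p.fst) (fun p => (q p.fst, b p.fst)) :=
          mi_pair M _ _ _ _
        have b4 : mi M (fun p => q p.snd) (fun p => (q p.fst, x0 p.fst)) (fun p => b p.fst) ≤
            mi M (fun p => q p.snd) (fun p => (x0 p.fst, q p.fst)) (fun p => b p.fst) := by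
          refine mi_mono_right M _ ?_
          intro p p' _ _ e
          simp only [Prod.mk.injEq] at e
          exact Prod.ext e.1.2 e.1.1
        have b5 := mi_nonneg M (fun p => q p.snd) (fun p => q p.fst) (fun p => b p.fst)
        rw [mi_symm M (fun p => x0 p.fst), mi_symm M (fun p => x0 p.fst) (fun p => q p.snd)]
        linarith
      linarith
    have h7 : hc M (fun p => x0 p.fst) (fun p => b p.fst) = hc P x0 b := hs.hc x0 b
    have h8 : mi M (fun p => x0 p.fst) (fun p => (q p.fst, q p.snd)) (fun p => b p.fst) =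
        hc M (fun p => x0 p.fst) (fun p => b p.fst) -
          hc M (fun p => x0 p.fst) (fun p => ((q p.fst, q p.snd), b p.fst)) := rfl
    have h9 : hc P x0 (fun ω => (q ω, b ω)) ≤ hc P x0 b := Add.hc_anti P fun ω ω' e => by
      simp only [Prod.mk.injEq] at e
      exact e.2
    linarith
  · intro ω
    exact pr_id _ ω

end Vale.Agent.P127.Stk.Abs
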