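import Vale.Agent.P127.Stk.Abs.ChainDefs
import Vale.Agent.P127.Stk.Abs.Basic

/-!
# P127 / Stk / Abs : the facts for a triple
-/

namespace Vale.Agent.P127.Stk.Abs

open Finset Vale.Agent.P127 Vale.Agent.P127.Stk

section a4
variable {Ωt : Type} [Fintype Ωt] {α δ β σ : Type} {d : ℕ}

/-- the facts from three bounds on informations -/
theorem a4_facts (M : Law Ωt) (bt : Ωt → β) (u : Ωt → α) (l : Ωt → δ)
    (P D Q xs : Ωt → Fin d → ℤ) (s : Ωt → σ) (h E E1 : ℝ)
    (fP : ∀ m m', u m = u m' → P m = P m') (fD : ∀ m m', l m = l m' → D m = D m')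
    (fx : ∀ m m', u m = u m' → xs m = xs m') (fs : ∀ m m', u m = u m' → s m = s m')
    (hP : hc M P bt = h) (hQ : hc M Q bt = h)
    (iQ : mi M Q (fun m => (u m, l m)) bt ≤ E) (iD : mi M D u bt ≤ E1)
    (iP : mi M P xs bt ≤ E) :
    Facts M bt P D Q xs h (hc M (fun m => P m + D m + Q m) bt) E E1 ∧
      mi M s (fun m => P m + Q m) bt ≤ hc M (fun m => P m + D m + Q m) bt - h + 2 * E + E1 := by
  have i1 : mi M (fun m => P m + D m) Q bt ≤ E := by
    rw [mi_symm]
    refine (mi_mono_right M Q (Y' := fun m => (u m, l m)) ?_).trans iQ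
    intro m m' _ _ e
    simp only [Prod.mk.injEq] at e
    show P m + D m = P m' + D m'
    rw [fP m m' e.1.1, fD m m' e.1.2]
  have i2 : mi M Q (fun m => (P m, D m)) bt ≤ E := by
    refine (mi_mono_right M Q (Y' := fun m => (u m, l m)) ?_).trans iQ
    intro m m' _ _ e
    simp only [Prod.mk.injEq] at e
    exact Prod.ext (fP m m' e.1.1) (fD m m' e.1.2)
  have i3 : mi M Q (fun m => (P m, xs m)) bt ≤ E := by
    refine (mi_mono_right M Q (Y' := fun m => (u m, l m)) ?_).trans iQ
    intro m m' _ _ e
    simp only [Prod.mk.injEq] at e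
    exact Prod.ext (fP m m' e.1.1) (fx m m' e.1.1)
  have i4 : mi M Q u bt ≤ E := by
    refine (mi_mono_right M Q (Y' := fun m => (u m, l m)) ?_).trans iQ
    intro m m' _ _ e
    simp only [Prod.mk.injEq] at e
    exact e.1.1
  have i5 : mi M D P bt ≤ E1 := by
    refine (mi_mono_right M D (Y' := u) ?_).trans iD
    intro m m' _ _ e
    simp only [Prod.mk.injEq] at e
    exact fP m m' e.1
  have iPQ : mi M P Q bt ≤ E := by
    have h1 := mi_pair M Q P D bt
    have h2 := mi_nonneg M Q D (fun m => (P m, bt m))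
    rw [mi_symm M P Q]
    linarith
  have iDD : mi M (fun m => (P m, Q m)) D bt ≤ E + E1 := by
    rw [mi_symm, mi_pair]
    have h1 := mi_pair M Q P D bt
    have h2 := mi_nonneg M Q P bt
    have h3 := mi_symm M D Q (fun m => (P m, bt m))
    linarith
  have ixx : mi M (fun m => (P m, Q m)) xs bt ≤ 2 * E := by
    rw [mi_symm, mi_pair]
    have h1 := mi_pair M Q P xs bt
    have h2 := mi_nonneg M Q P bt
    have h3 := mi_symm M xs Q (fun m => (P m, bt m))
    have h4 := mi_symm M xs P bt
    linarith
  have hPD : hc M (fun m => P m + D m) bt ≤ hc M (fun m => P m + D m + Q m) bt + E := by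
    have h1 : hc M (fun m => P m + D m) (fun m => (Q m, bt m)) ≤
        hc M (fun m => P m + D m + Q m) (fun m => (Q m, bt m)) := by
      refine hc_mono_left M ?_
      intro m m' _ _ e
      simp only [Prod.mk.injEq] at e
      have e1 := e.1
      rw [e.2.1] at e1
      exact add_right_cancel e1
    have h2 : hc M (fun m => P m + D m + Q m) (fun m => (Q m, bt m)) ≤
        hc M (fun m => P m + D m + Q m) bt :=
      hc_mono_right M _ (fun m m' _ _ e => congrArg Prod.snd e)
    have h3 : mi M (fun m => P m + D m) Q bt = hc M (fun m => P m + D m) bt -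
      hc M (fun m => P m + D m) (fun m => (Q m, bt m)) := rfl
    linarith
  have hPQ : hc M (fun m => P m + Q m) bt ≤ hc M (fun m => P m + D m + Q m) bt + E + E1 := by
    have h1 : hc M (fun m => P m + Q m) (fun m => (D m, bt m)) ≤
        hc M (fun m => P m + D m + Q m) (fun m => (D m, bt m)) := by
      refine hc_mono_left M ?_
      intro m m' _ _ e
      simp only [Prod.mk.injEq] at e
      have e1 := e.1
      rw [e.2.1, add_right_comm, add_right_comm (P m') (D m') (Q m')] at e1
      exact add_right_cancel e1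
    have h2 : hc M (fun m => P m + D m + Q m) (fun m => (D m, bt m)) ≤
        hc M (fun m => P m + D m + Q m) bt :=
      hc_mono_right M _ (fun m m' _ _ e => congrArg Prod.snd e)
    have h3 : mi M (fun m => P m + Q m) D bt = hc M (fun m => P m + Q m) bt -
      hc M (fun m => P m + Q m) (fun m => (D m, bt m)) := rfl
    have h4 : mi M (fun m => P m + Q m) D bt ≤ mi M (fun m => (P m, Q m)) D bt := by
      refine mi_mono_left M D ?_
      intro m m' _ _ e
      simp only [Prod.mk.injEq] at e
      show P m + Q m = P m' + Q m'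
      rw [e.1.1, e.1.2]
    linarith
  refine ⟨⟨hP, hQ, rfl, iPQ, hPD, hPQ, iDD, ixx⟩, ?_⟩
  have c1 : mi M s (fun m => P m + Q m) bt ≤ mi M (fun m => P m + Q m) u bt := by
    rw [mi_symm M _ u]
    refine mi_mono_left M _ ?_
    intro m m' _ _ e
    simp only [Prod.mk.injEq] at e
    exact fs m m' e.1
  have c2 : mi M (fun m => P m + Q m) u bt = hc M (fun m => P m + Q m) bt -
    hc M (fun m => P m + Q m) (fun m => (u m, bt m)) := rfl
  have c3 : hc M Q (fun m => (u m, bt m)) ≤ hc M (fun m => P m + Q m) (fun m => (u m, bt m)) := by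
    refine hc_mono_left M ?_
    intro m m' _ _ e
    simp only [Prod.mk.injEq] at e
    have e1 := e.1
    rw [fP m m' e.2.1] at e1
    exact add_left_cancel e1
  have c4 : mi M Q u bt = hc M Q bt - hc M Q (fun m => (u m, bt m)) := rfl
  linarith

end a4

/-- A4 -/
theorem pfacts : PFacts := by
  intro Ω _ β d P b x K K1 E E1 A L T
  have hb1 : ∀ m, b (A.s (T.v m)) = b (A.s (T.u m)) := fun m => ((T.hul m).trans (T.hlv m)).symm
  have iQ : mi T.M (fun m => A.D (T.v m)) (fun m => (T.u m, T.l m))
      (fun m => b (A.s (T.u m))) ≤ E := by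
    have h1 : mi T.M (fun m => A.D (T.v m)) (fun m => (T.u m, T.l m)) (fun m => b (A.s (T.u m))) ≤
        mi T.M (fun m => A.D (T.v m)) (fun m => (x (A.s (T.v m)), (T.u m, T.l m)))
          (fun m => b (A.s (T.u m))) := by
      refine mi_mono_right T.M _ ?_
      intro m m' _ _ e
      simp only [Prod.mk.injEq] at e ⊢
      exact e.1.2
    rw [mi_pair T.M (fun m => A.D (T.v m)) (fun m => x (A.s (T.v m)))
      (fun m => (T.u m, T.l m))] at h1
    have h2 : mi T.M (fun m => A.D (T.v m)) (fun m => x (A.s (T.v m)))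
        (fun m => b (A.s (T.u m))) ≤ E := by
      have h3 := T.smp_v.mi A.D (fun m => x (A.s m)) (fun m => b (A.s m))
      have h4 := A.info
      simp only [hb1] at h3
      rw [h3]
      exact h4
    have h5 : mi T.M (fun m => A.D (T.v m)) (fun m => (T.u m, T.l m))
        (fun m => (x (A.s (T.v m)), b (A.s (T.u m)))) = 0 := by
      have h6 := T.ci_v
      simp only [hb1] at h6
      refine mi_zero_of h6 ?_ ?_
      · intro m m' e _
        rw [e]
      · intro m m' e _
        exact e
    linarith
  have iD : mi T.M (fun m => L.D (T.l m)) T.u (fun m => b (A.s (T.u m))) ≤ E1 := by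
    have h1 : mi T.M (fun m => L.D (T.l m)) T.u (fun m => b (A.s (T.u m))) ≤
        mi T.M (fun m => L.D (T.l m)) (fun m => (x (L.s (T.l m)), T.u m))
          (fun m => b (A.s (T.u m))) := by
      refine mi_mono_right T.M _ ?_
      intro m m' _ _ e
      simp only [Prod.mk.injEq] at e
      exact e.1.2
    rw [mi_pair] at h1
    have h2 : mi T.M (fun m => L.D (T.l m)) (fun m => x (L.s (T.l m)))
        (fun m => b (A.s (T.u m))) ≤ E1 := by
      have h3 := T.smp_l.mi L.D (fun m => x (L.s m)) (fun m => b (L.s m))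
      have h4 := L.info
      simp only [← T.hul] at h3
      rw [h3]
      exact h4
    have h5 : mi T.M (fun m => L.D (T.l m)) T.u
        (fun m => (x (L.s (T.l m)), b (A.s (T.u m)))) = 0 := by
      have h6 := T.ci_l
      simp only [← T.hul] at h6
      refine mi_zero_of h6 ?_ ?_
      · intro m m' e _
        rw [e]
      · intro m m' e _
        exact e
    linarith
  have iP : mi T.M (fun m => A.D (T.u m)) (fun m => x (A.s (T.u m)))
      (fun m => b (A.s (T.u m))) ≤ E := by
    rw [T.smp_u.mi A.D (fun m => x (A.s m)) (fun m => b (A.s m))]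
    exact A.info
  have hP : hc T.M (fun m => A.D (T.u m)) (fun m => b (A.s (T.u m))) = A.h :=
    T.smp_u.hc A.D (fun m => b (A.s m))
  have hQ : hc T.M (fun m => A.D (T.v m)) (fun m => b (A.s (T.u m))) = A.h := by
    have h3 := T.smp_v.hc A.D (fun m => b (A.s m))
    simp only [hb1] at h3
    exact h3
  exact ⟨_, a4_facts T.M (fun m => b (A.s (T.u m))) T.u T.l (fun m => A.D (T.u m))
    (fun m => L.D (T.l m)) (fun m => A.D (T.v m)) (fun m => x (A.s (T.u m)))
    (fun m => A.s (T.u m)) A.h E E1 (fun m m' e => by simp only [e]) (fun m m' e => by simp only [e])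
    (fun m m' e => by simp only [e]) (fun m m' e => by simp only [e]) hP hQ iQ iD iP⟩

end Vale.Agent.P127.Stk.Abs
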