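import Vale.Agent.P127.Stk.Abs.ChainDefs
import Vale.Agent.P127.Stk.Abs.Basic

/-!
# P127 / Stk / Abs : a triple is a link
-/

namespace Vale.Agent.P127.Stk.Abs

open Finset Vale.Agent.P127 Vale.Agent.P127.Stk

theorem ptripleLink : PTripleLink := by
  intro Ω _ β d P b x K K1 E E1 A L T
  have hb1 : ∀ m, b (A.s (T.v m)) = b (A.s (T.u m)) := fun m => ((T.hul m).trans (T.hlv m)).symm
  have iQ : mi T.M (fun m => A.D (T.v m)) (fun m => (T.u m, T.l m))
      (fun m => b (A.s (T.u m))) ≤ E := by
    have h1 : mi T.M (fun m => A.D (T.v m)) (fun m => (T.u m, T.l m)) (fun m => b (A.s (T.u m))) ≤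
        mi T.M (fun m => A.D (T.v m)) (fun m => (x (A.s (T.v m)), (T.u m, T.l m)))
          (fun m => b (A.s (T.u m))) := by
      refine mi_mono_right T.M _ ?_
      intro m m' _ _ e
      simp only [Prod.mk.injEq] at e ⊢
      exact e.1.2
    rw [mi_pair T.M (fun m => A.D (T.v m)) (fun m => x (A.s (T.v m)))
      (fun m => (T.u m, T.l m))] at h1
    have h2 : mi T.M (fun m => A.D (T.v m)) (fun m => x (A.s (T.v m)))
        (fun m => b (A.s (T.u m))) ≤ E := by
      have h3 := T.smp_v.mi A.D (fun m => x (A.s m)) (fun m => b (A.s m))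
      have h4 := A.info
      simp only [hb1] at h3
      rw [h3]
      exact h4
    have h5 : mi T.M (fun m => A.D (T.v m)) (fun m => (T.u m, T.l m))
        (fun m => (x (A.s (T.v m)), b (A.s (T.u m)))) = 0 := by
      have h6 := T.ci_v
      simp only [hb1] at h6
      refine mi_zero_of h6 ?_ ?_
      · intro m m' e _
        rw [e]
      · intro m m' e _
        exact e
    linarith
  have iD : mi T.M (fun m => L.D (T.l m)) T.u (fun m => b (A.s (T.u m))) ≤ E1 := by
    have h1 : mi T.M (fun m => L.D (T.l m)) T.u (fun m => b (A.s (T.u m))) ≤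
        mi T.M (fun m => L.D (T.l m)) (fun m => (x (L.s (T.l m)), T.u m))
          (fun m => b (A.s (T.u m))) := by
      refine mi_mono_right T.M _ ?_
      intro m m' _ _ e
      simp only [Prod.mk.injEq] at e
      exact e.1.2
    rw [mi_pair] at h1
    have h2 : mi T.M (fun m => L.D (T.l m)) (fun m => x (L.s (T.l m)))
        (fun m => b (A.s (T.u m))) ≤ E1 := by
      have h3 := T.smp_l.mi L.D (fun m => x (L.s m)) (fun m => b (L.s m))
      have h4 := L.info
      simp only [← T.hul] at h3
      rw [h3]
      exact h4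
    have h5 : mi T.M (fun m => L.D (T.l m)) T.u
        (fun m => (x (L.s (T.l m)), b (A.s (T.u m)))) = 0 := by
      have h6 := T.ci_l
      simp only [← T.hul] at h6
      refine mi_zero_of h6 ?_ ?_
      · intro m m' e _
        rw [e]
      · intro m m' e _
        exact e
    linarith
  have iP : mi T.M (fun m => A.D (T.u m)) (fun m => x (A.s (T.u m)))
      (fun m => b (A.s (T.u m))) ≤ E := by
    rw [T.smp_u.mi A.D (fun m => x (A.s m)) (fun m => b (A.s m))]
    exact A.info
  refine ⟨{
    Ωl := T.Ωt
    fin := T.fin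
    M := T.M
    s := fun m => A.s (T.u m)
    e := fun m => A.e (T.v m)
    D := fun m => A.D (T.u m) + L.D (T.l m) + A.D (T.v m)
    smp_s := T.smp_u.comp A.smp_s
    smp_e := T.smp_v.comp A.smp_e
    hb := fun m => by rw [← A.hb, hb1]
    noise := ?_
    info := ?_ }, rfl⟩
  · intro m c
    have h1 := abs_le.1 (A.noise (T.u m) c)
    have h2 := abs_le.1 (L.noise (T.l m) c)
    have h3 := abs_le.1 (A.noise (T.v m) c)
    have h4 := congrFun (T.xul m) c
    have h5 := congrFun (T.xlv m) c
    simp only [Pi.add_apply]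
    rw [abs_le]
    push_cast
    constructor <;> linarith [h1.1, h1.2, h2.1, h2.2, h3.1, h3.2]
  · have h1 : mi T.M (fun m => A.D (T.u m) + L.D (T.l m) + A.D (T.v m))
        (fun m => x (A.s (T.u m))) (fun m => b (A.s (T.u m))) ≤
        mi T.M (fun m => x (A.s (T.u m))) (fun m => (A.D (T.u m), (L.D (T.l m), A.D (T.v m))))
          (fun m => b (A.s (T.u m))) := by
      rw [mi_symm T.M (fun m => x (A.s (T.u m)))]
      refine mi_mono_left T.M _ ?_
      intro m m' _ _ e
      simp only [Prod.mk.injEq] at e
      show _ + _ + _ = _ + _ + _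
      rw [e.1.1, e.1.2.1, e.1.2.2]
    rw [mi_pair, mi_pair] at h1
    have h2 : mi T.M (fun m => x (A.s (T.u m))) (fun m => A.D (T.u m))
        (fun m => b (A.s (T.u m))) ≤ E := by
      rw [mi_symm]
      exact iP
    have h3 : mi T.M (fun m => x (A.s (T.u m))) (fun m => L.D (T.l m))
        (fun m => (A.D (T.u m), b (A.s (T.u m)))) ≤ E1 := by
      rw [mi_symm]
      refine le_trans ?_ iD
      rw [mi_symm T.M _ T.u]
      refine le_trans ?_ (mi_cond_le T.M (fun m => L.D (T.l m)) (W := fun m => A.D (T.u m))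
        (fun m => b (A.s (T.u m))) ?_)
      · rw [mi_symm]
        refine mi_mono_left T.M _ ?_
        intro m m' _ _ e
        simp only [Prod.mk.injEq] at e
        simp only [e.1]
      · intro m m' _ _ e
        simp only [Prod.mk.injEq] at e
        simp only [e.1]
    have h4 : mi T.M (fun m => x (A.s (T.u m))) (fun m => A.D (T.v m))
        (fun m => (L.D (T.l m), A.D (T.u m), b (A.s (T.u m)))) ≤ E := by
      refine le_trans ?_ iQ
      rw [mi_symm T.M _ (fun m => (T.u m, T.l m))]
      have h5 : mi T.M (fun m => x (A.s (T.u m))) (fun m => A.D (T.v m))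
          (fun m => (L.D (T.l m), A.D (T.u m), b (A.s (T.u m)))) =
          mi T.M (fun m => x (A.s (T.u m))) (fun m => A.D (T.v m))
          (fun m => ((L.D (T.l m), A.D (T.u m)), b (A.s (T.u m)))) := by
        refine mi_congr_cond T.M _ _ ?_ ?_
        · intro m m' _ _ e
          simp only [Prod.mk.injEq] at e ⊢
          exact ⟨e.1.1, e.1.2, e.2⟩
        · intro m m' _ _ e
          simp only [Prod.mk.injEq] at e ⊢
          exact ⟨⟨e.1, e.2.1⟩, e.2.2⟩
      rw [h5]
      refine le_trans ?_ (mi_cond_le T.M (fun m => A.D (T.v m))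
        (W := fun m => (L.D (T.l m), A.D (T.u m))) (fun m => b (A.s (T.u m))) ?_)
      · refine mi_mono_left T.M _ ?_
        intro m m' _ _ e
        simp only [Prod.mk.injEq] at e
        simp only [e.1.1]
      · intro m m' _ _ e
        simp only [Prod.mk.injEq] at e
        simp only [e.1.1, e.1.2]
    linarith

end Vale.Agent.P127.Stk.Abs
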