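import Vale.Agent.P127.Stk.Abs.ChainDefs
import Vale.Agent.P127.Stk.Abs.Basic

/-!
# P127 / Stk / Abs : existence of triples
-/

namespace Vale.Agent.P127.Stk.Abs

open Finset Vale.Agent.P127 Vale.Agent.P127.Stk

theorem ptriple : PTriple := by
  intro Ω _ β d P b x K K1 E E1 A L
  have hc1 : ∀ y, L.M.pr (fun m => (x (L.e m), b (L.e m))) y =
      A.M.pr (fun m => (x (A.s m), b (A.s m))) y := by
    intro y
    rw [L.smp_e.pr (fun ω => (x ω, b ω)) y, A.smp_s.pr (fun ω => (x ω, b ω)) y]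
  obtain ⟨Ω1, _, N, l1, v1, hl1, hv1, eq1, ci1⟩ := pext L.Ωl A.Ωl _ L.M A.M _ _ hc1
  have hs1 : Smp N (fun ω => L.s (l1 ω)) P := hl1.comp L.smp_s
  have hc2 : ∀ y, A.M.pr (fun m => (x (A.e m), b (A.e m))) y =
      N.pr (fun ω => (x (L.s (l1 ω)), b (L.s (l1 ω)))) y := by
    intro y
    rw [A.smp_e.pr (fun ω => (x ω, b ω)) y, hs1.pr (fun ω => (x ω, b ω)) y]
  obtain ⟨Ω2, _, T, u, n, hu, hn, eq2, ci2⟩ := pext A.Ωl Ω1 _ A.M N _ _ hc2
  have eq1' : ∀ ω, x (L.e (l1 ω)) = x (A.s (v1 ω)) ∧ b (L.e (l1 ω)) = b (A.s (v1 ω)) :=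
    fun ω => Prod.mk.injEq _ _ _ _ ▸ eq1 ω
  have eq2' : ∀ ω, x (A.e (u ω)) = x (L.s (l1 (n ω))) ∧ b (A.e (u ω)) = b (L.s (l1 (n ω))) :=
    fun ω => Prod.mk.injEq _ _ _ _ ▸ eq2 ω
  -- the condition of the second gluing in terms of `l`
  have hfun : (fun ω => (x (A.e (u ω)), b (A.e (u ω)))) =
      fun ω => (x (L.s (l1 (n ω))), b (L.s (l1 (n ω)))) := funext eq2
  have ci2' : mi T n u (fun ω => (x (L.s (l1 (n ω))), b (L.s (l1 (n ω))))) = 0 := by
    rw [mi_symm, ← hfun]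
    exact ci2
  have hfun1 : (fun ω => (x (A.s (v1 ω)), b (A.s (v1 ω)))) =
      fun ω => (x (L.e (l1 ω)), b (L.e (l1 ω))) := (funext eq1).symm
  refine ⟨⟨Ω2, inferInstance, T, u, fun ω => l1 (n ω), fun ω => v1 (n ω), hu, hn.comp hl1,
    hn.comp hv1, fun m => (A.hb (u m)).trans (eq2' m).2, fun m => (L.hb _).trans (eq1' (n m)).2,
    fun m => (eq2' m).1, fun m => (eq1' (n m)).1, ?_, ?_⟩⟩
  · exact mi_zero_of ci2' (fun ω ω' h _ => congrArg l1 h) (fun ω ω' h _ => h)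
  · have h0 : mi T (fun m => v1 (n m)) (fun m => (u m, l1 (n m)))
        (fun m => (x (A.s (v1 (n m))), b (A.s (v1 (n m))))) ≤
        mi T (fun m => v1 (n m)) (fun m => (l1 (n m), u m))
        (fun m => (x (A.s (v1 (n m))), b (A.s (v1 (n m))))) := by
      refine mi_mono_right T _ fun ω ω' _ _ e => ?_
      simp only [Prod.mk.injEq] at e ⊢
      exact ⟨e.1.2, e.1.1⟩
    refine le_antisymm (h0.trans ?_) (mi_nonneg T _ _ _)
    rw [mi_pair]
    have h1 : mi T (fun m => v1 (n m)) (fun m => l1 (n m))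
        (fun m => (x (A.s (v1 (n m))), b (A.s (v1 (n m))))) = 0 := by
      have h2 := hn.mi v1 l1 (fun ω => (x (A.s (v1 ω)), b (A.s (v1 ω))))
      rw [h2, mi_symm, hfun1]
      exact ci1
    have h3 : mi T (fun m => v1 (n m)) u
        (fun m => (l1 (n m), x (A.s (v1 (n m))), b (A.s (v1 (n m))))) = 0 := by
      have h4 : mi T n u (fun ω => (l1 (n ω), x (L.s (l1 (n ω))), b (L.s (l1 (n ω))))) = 0 :=
        mi_zero_cond ci2' fun ω ω' h _ => congrArg l1 h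
      have h5 : mi T (fun m => v1 (n m)) u
          (fun ω => (l1 (n ω), x (L.s (l1 (n ω))), b (L.s (l1 (n ω))))) = 0 :=
        mi_zero_of h4 (fun ω ω' h _ => congrArg v1 h) (fun ω ω' h _ => h)
      rw [← h5]
      refine mi_congr_cond T _ _ ?_ ?_
      · intro ω ω' _ _ e
        simp only [Prod.mk.injEq] at e ⊢
        refine ⟨e.1, ?_, ?_⟩
        · rw [← (eq1' (n ω)).1, ← (eq1' (n ω')).1, e.1]
        · rw [← (eq1' (n ω)).2, ← (eq1' (n ω')).2, e.1]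
      · intro ω ω' _ _ e
        simp only [Prod.mk.injEq] at e ⊢
        exact ⟨e.1, by rw [e.1], by rw [e.1]⟩
    rw [h1, h3, add_zero]

end Vale.Agent.P127.Stk.Abs
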