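import Vale.Agent.P127.Stk.Abs.Finish

/-!
# P127 / Stk / Abs : composition of absorbed variables (statements of `Finish.lean`)
-/

namespace Vale.Agent.P127.Stk.Abs

open Finset Vale.Agent.P127 Vale.Agent.P127.Stk

theorem finC1 : FinC1 := by
  intro Ω Ξ1 Ξ2 Ω' _ _ _ _ β κ d P b q x R1 bR1 Pi1 R2 bR2 Pi2 ρ r1 r2 e0 h1 h2 h0 T ξ1 ξ2 s1 s2 hb
    hm Ω'' _ T' w τ sw sτ hbw hmw
  have sξ1 : Smp T' (fun ω => ξ1 (τ ω)) R1 := sτ.comp s1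
  have sξ2 : Smp T' (fun ω => ξ2 (τ ω)) R2 := sτ.comp s2
  have hbw2 : ∀ ω, b (w ω) = bR2 (ξ2 (τ ω)) := fun ω => (hbw ω).trans (hb (τ ω))
  have m1 : mi T' w (fun ω => ξ1 (τ ω)) (fun ω => b (w ω)) = 0 :=
    mi_zero_of hmw (fun ω ω' h _ => h) (fun ω ω' h _ => by rw [h])
  have m2 : mi T' w (fun ω => ξ2 (τ ω)) (fun ω => b (w ω)) = 0 :=
    mi_zero_of hmw (fun ω ω' h _ => h) (fun ω ω' h _ => by rw [h])
  have m12 : mi T' (fun ω => ξ1 (τ ω)) (fun ω => ξ2 (τ ω)) (fun ω => b (w ω)) = 0 := by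
    have := (sτ.mi ξ1 ξ2 (fun ω => bR1 (ξ1 ω))).trans hm
    rw [← this]
    have e : (fun ω => b (w ω)) = fun ω => bR1 (ξ1 (τ ω)) := funext hbw
    rw [e]
  have a1 := h1 Ω'' T' w (fun ω => ξ1 (τ ω)) sw sξ1 hbw m1
  have a2 := h2 Ω'' T' w (fun ω => ξ2 (τ ω)) sw sξ2 hbw2 m2
  have a0 : ρ - e0 ≤ hc T' (fun ω => x (w ω)) (fun ω => (q (w ω), b (w ω))) := by
    rw [sw.hc x (fun ω => (q ω, b ω))]
    exact h0
  obtain ⟨Q1, hQ1⟩ : ∃ Q1 : Ω'' → Fin d → ℤ, Q1 = fun ω => Pi1 (ξ1 (τ ω)) := ⟨_, rfl⟩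
  obtain ⟨Q2, hQ2⟩ : ∃ Q2 : Ω'' → Fin d → ℤ, Q2 = fun ω => Pi2 (ξ2 (τ ω)) := ⟨_, rfl⟩
  obtain ⟨x', hx'⟩ : ∃ x' : Ω'' → Fin d → ℤ, x' = fun ω => x (w ω) := ⟨_, rfl⟩
  have e1 : (fun ω => x (w ω) + Pi1 (ξ1 (τ ω))) = fun ω => Q1 ω + x' ω := by
    funext ω
    rw [hQ1, hx', add_comm]
  have e2 : (fun ω => x (w ω) + Pi2 (ξ2 (τ ω))) = fun ω => x' ω + Q2 ω := by
    funext ω
    rw [hQ2, hx']
  have e3 : (fun ω => x (w ω) + (Pi1 (ξ1 (τ ω)) + Pi2 (ξ2 (τ ω)))) =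
      fun ω => Q1 ω + x' ω + Q2 ω := by
    funext ω
    rw [hQ1, hQ2, hx']
    show x (w ω) + (Pi1 (ξ1 (τ ω)) + Pi2 (ξ2 (τ ω))) = Pi1 (ξ1 (τ ω)) + x (w ω) + Pi2 (ξ2 (τ ω))
    abel
  have hxw : ∀ ω ω', w ω = w ω' → x' ω = x' ω' := fun ω ω' h => by rw [hx']; simp only [h]
  have hQ1τ : ∀ ω ω', ξ1 (τ ω) = ξ1 (τ ω') → Q1 ω = Q1 ω' := fun ω ω' h => by
    rw [hQ1]; simp only [h]
  have hQ2τ : ∀ ω ω', ξ2 (τ ω) = ξ2 (τ ω') → Q2 ω = Q2 ω' := fun ω ω' h => by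
    rw [hQ2]; simp only [h]
  show hc T' (fun ω => x (w ω) + (Pi1 (ξ1 (τ ω)) + Pi2 (ξ2 (τ ω)))) _ ≤ _
  rw [e3]
  rw [e1] at a1
  rw [e2] at a2
  rw [← hx'] at a0
  have hind : hc T' Q1 (fun ω => (q (w ω), b (w ω))) + hc T' x' (fun ω => (q (w ω), b (w ω))) +
      hc T' Q2 (fun ω => (q (w ω), b (w ω))) - 0 ≤
      hc T' (fun ω => (Q1 ω, x' ω, Q2 ω)) (fun ω => (q (w ω), b (w ω))) := by
    have k0 : hc T' (fun ω => (x' ω, (Q1 ω, Q2 ω))) (fun ω => (q (w ω), b (w ω))) ≤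
        hc T' (fun ω => (Q1 ω, x' ω, Q2 ω)) (fun ω => (q (w ω), b (w ω))) :=
      Add.hc_mono T' fun ω ω' h _ => by
        simp only [Prod.mk.injEq] at h ⊢
        exact ⟨h.2.1, h.1, h.2.2⟩
    rw [hc_pair T' x' (fun ω => (Q1 ω, Q2 ω))] at k0
    have k1 : hc T' (fun ω => (Q1 ω, Q2 ω)) (fun ω => ((x' ω, q (w ω)), b (w ω))) =
        hc T' (fun ω => (Q1 ω, Q2 ω)) (fun ω => b (w ω)) := by
      refine fin_hc_of_mi T' (mi_zero_of (by rw [mi_symm]; exact hmw) (fun ω ω' h _ => ?_)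
        (fun ω ω' h _ => ?_))
      · rw [hQ1τ ω ω' (by rw [h]), hQ2τ ω ω' (by rw [h])]
      · rw [hxw ω ω' h, h]
    have k2 : hc T' (fun ω => (Q1 ω, Q2 ω)) (fun ω => ((x' ω, q (w ω)), b (w ω))) ≤
        hc T' (fun ω => (Q1 ω, Q2 ω)) (fun ω => (x' ω, (q (w ω), b (w ω)))) :=
      hc_mono_right T' _ (fun ω ω' _ _ h => by
        simp only [Prod.mk.injEq] at h ⊢
        exact ⟨h.1.1, h.1.2, h.2⟩)
    have k3 := hc_pair T' Q1 Q2 (fun ω => b (w ω))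
    have k4 : hc T' Q2 (fun ω => (Q1 ω, b (w ω))) = hc T' Q2 (fun ω => b (w ω)) :=
      fin_hc_of_mi T' (mi_zero_of (by rw [mi_symm]; exact m12) (fun ω ω' h _ => hQ2τ ω ω' h)
        (fun ω ω' h _ => hQ1τ ω ω' h))
    have k5 : hc T' Q1 (fun ω => (q (w ω), b (w ω))) ≤ hc T' Q1 (fun ω => b (w ω)) :=
      hc_mono_right T' _ (fun ω ω' _ _ h => (Prod.mk.inj h).2)
    have k6 : hc T' Q2 (fun ω => (q (w ω), b (w ω))) ≤ hc T' Q2 (fun ω => b (w ω)) :=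
      hc_mono_right T' _ (fun ω ω' _ _ h => (Prod.mk.inj h).2)
    linarith
  have hmad := Add.madiman T' Q1 x' Q2 (fun ω => (q (w ω), b (w ω))) (δ := 0) hind
  linarith

theorem finC2 : FinC2 := by
  intro Λ Ξ1 Ξ2 Ω' _ _ _ _ β d L bL D1 D2 R1 bR1 Pi1 R2 bR2 Pi2 e1 e2 h1 h2 T ξ1 ξ2 s1 s2 hb
    hm Ω'' _ T' l τ sl sτ hbl hml
  have sξ1 : Smp T' (fun ω => ξ1 (τ ω)) R1 := sτ.comp s1
  have sξ2 : Smp T' (fun ω => ξ2 (τ ω)) R2 := sτ.comp s2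
  have hbl2 : ∀ ω, bL (l ω) = bR2 (ξ2 (τ ω)) := fun ω => (hbl ω).trans (hb (τ ω))
  have m1 : mi T' l (fun ω => ξ1 (τ ω)) (fun ω => bL (l ω)) = 0 :=
    mi_zero_of hml (fun ω ω' h _ => h) (fun ω ω' h _ => by rw [h])
  have m2 : mi T' l (fun ω => ξ2 (τ ω)) (fun ω => bL (l ω)) = 0 :=
    mi_zero_of hml (fun ω ω' h _ => h) (fun ω ω' h _ => by rw [h])
  have m12 : mi T' (fun ω => ξ1 (τ ω)) (fun ω => ξ2 (τ ω)) (fun ω => bL (l ω)) = 0 := by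
    have := (sτ.mi ξ1 ξ2 (fun ω => bR1 (ξ1 ω))).trans hm
    rw [← this]
    have e : (fun ω => bL (l ω)) = fun ω => bR1 (ξ1 (τ ω)) := funext hbl
    rw [e]
  have a1 := h1 Ω'' T' l (fun ω => ξ1 (τ ω)) sl sξ1 hbl m1
  have a2 := h2 Ω'' T' l (fun ω => ξ2 (τ ω)) sl sξ2 hbl2 m2
  have b1 : hc R1 Pi1 bR1 = hc T' (fun ω => Pi1 (ξ1 (τ ω))) (fun ω => bL (l ω)) := by
    rw [← sξ1.hc Pi1 bR1]
    have e : (fun ω => bL (l ω)) = fun ω => bR1 (ξ1 (τ ω)) := funext hbl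
    rw [e]
  have b2 : hc R2 Pi2 bR2 = hc T' (fun ω => Pi2 (ξ2 (τ ω))) (fun ω => bL (l ω)) := by
    rw [← sξ2.hc Pi2 bR2]
    have e : (fun ω => bL (l ω)) = fun ω => bR2 (ξ2 (τ ω)) := funext hbl2
    rw [e]
  have b3 : hc T (fun ω => Pi1 (ξ1 ω) + Pi2 (ξ2 ω)) (fun ω => bR1 (ξ1 ω)) =
      hc T' (fun ω => Pi1 (ξ1 (τ ω)) + Pi2 (ξ2 (τ ω))) (fun ω => bL (l ω)) := by
    rw [← sτ.hc (fun ω => Pi1 (ξ1 ω) + Pi2 (ξ2 ω)) (fun ω => bR1 (ξ1 ω))]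
    have e : (fun ω => bL (l ω)) = fun ω => bR1 (ξ1 (τ ω)) := funext hbl
    rw [e]
  rw [b1] at a1
  rw [b2] at a2
  rw [b3]
  obtain ⟨V1, hV1⟩ : ∃ V1 : Ω'' → Fin d → ℤ, V1 = fun ω => Pi1 (ξ1 (τ ω)) + D1 (l ω) := ⟨_, rfl⟩
  obtain ⟨V2, hV2⟩ : ∃ V2 : Ω'' → Fin d → ℤ, V2 = fun ω => Pi2 (ξ2 (τ ω)) + D2 (l ω) := ⟨_, rfl⟩
  rw [← hV1] at a1
  rw [← hV2] at a2
  have e3 : (fun ω => Pi1 (ξ1 (τ ω)) + Pi2 (ξ2 (τ ω)) + (D1 (l ω) + D2 (l ω))) =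
      fun ω => V1 ω + V2 ω := by
    funext ω
    rw [hV1, hV2]
    show _ = Pi1 (ξ1 (τ ω)) + D1 (l ω) + (Pi2 (ξ2 (τ ω)) + D2 (l ω))
    abel
  show hc T' (fun ω => Pi1 (ξ1 (τ ω)) + Pi2 (ξ2 (τ ω)) + (D1 (l ω) + D2 (l ω))) _ ≤ _
  rw [e3]
  -- given `l` the shifts are known
  have c1 : hc T' (fun ω => V1 ω + V2 ω) (fun ω => (l ω, bL (l ω))) =
      hc T' (fun ω => Pi1 (ξ1 (τ ω)) + Pi2 (ξ2 (τ ω))) (fun ω => bL (l ω)) := by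
    have k1 : hc T' (fun ω => V1 ω + V2 ω) (fun ω => (l ω, bL (l ω))) =
        hc T' (fun ω => Pi1 (ξ1 (τ ω)) + Pi2 (ξ2 (τ ω))) (fun ω => (l ω, bL (l ω))) := by
      refine Add.hc_eq T' fun ω ω' h => ?_
      have h' := (Prod.mk.inj h).1
      have g1 : ∀ ω, V1 ω + V2 ω = Pi1 (ξ1 (τ ω)) + Pi2 (ξ2 (τ ω)) + (D1 (l ω) + D2 (l ω)) :=
        fun ω => (congrFun e3 ω).symm
      rw [g1, g1, h']
      constructor
      · intro hh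
        rw [hh]
      · intro hh
        exact add_right_cancel hh
    rw [k1]
    refine fin_hc_of_mi T' (mi_zero_of (by rw [mi_symm]; exact hml) (fun ω ω' h _ => ?_)
        (fun ω ω' h _ => h))
    rw [h]
  have c2 : hc T' (fun ω => (V1 ω, V2 ω)) (fun ω => (l ω, bL (l ω))) =
      hc T' (fun ω => Pi1 (ξ1 (τ ω))) (fun ω => bL (l ω)) +
      hc T' (fun ω => Pi2 (ξ2 (τ ω))) (fun ω => bL (l ω)) := by
    have k1 : hc T' (fun ω => (V1 ω, V2 ω)) (fun ω => (l ω, bL (l ω))) =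
        hc T' (fun ω => (Pi1 (ξ1 (τ ω)), Pi2 (ξ2 (τ ω)))) (fun ω => (l ω, bL (l ω))) := by
      refine Add.hc_eq T' fun ω ω' h => ?_
      have h' := (Prod.mk.inj h).1
      simp only [hV1, hV2, Prod.mk.injEq, h']
      constructor
      · rintro ⟨hh, hh'⟩
        rw [hh, hh']
        exact ⟨rfl, rfl⟩
      · rintro ⟨hh, hh'⟩
        exact ⟨add_right_cancel hh, add_right_cancel hh'⟩
    rw [k1]
    have k2 : hc T' (fun ω => (Pi1 (ξ1 (τ ω)), Pi2 (ξ2 (τ ω)))) (fun ω => (l ω, bL (l ω))) =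
        hc T' (fun ω => (Pi1 (ξ1 (τ ω)), Pi2 (ξ2 (τ ω)))) (fun ω => bL (l ω)) := by
      refine fin_hc_of_mi T' (mi_zero_of (by rw [mi_symm]; exact hml) (fun ω ω' h _ => ?_)
        (fun ω ω' h _ => h))
      rw [h]
    rw [k2, hc_pair T' (fun ω => Pi1 (ξ1 (τ ω))) (fun ω => Pi2 (ξ2 (τ ω)))]
    congr 1
    exact fin_hc_of_mi T' (mi_zero_of (by rw [mi_symm]; exact m12) (fun ω ω' h _ => by rw [h])
        (fun ω ω' h _ => by rw [h]))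
  have c3 : mi T' (fun ω => V1 ω + V2 ω) l (fun ω => bL (l ω)) ≤
      mi T' (fun ω => (V1 ω, V2 ω)) l (fun ω => bL (l ω)) :=
    mi_mono_left T' l (fun ω ω' _ _ h => by
      simp only [Prod.mk.injEq] at h
      rw [h.1.1, h.1.2])
  have c4 := Add.hc_pair_le T' V1 V2 (fun ω => bL (l ω))
  unfold mi at c3
  rw [c1, c2] at c3
  linarith

theorem fin_swap {Ω : Type} [Fintype Ω] {γ : Type} (P : Law Ω) (c : Ω → γ) :
    Smp (pairL P c) (fun l => (⟨l.snd, l.fst, l.eq.symm⟩ : Law.GT c c)) (pairL P c) := by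
  classical
  intro ω
  unfold Law.pr
  have h1 : (Finset.univ.filter fun l : Law.GT c c => (⟨l.snd, l.fst, l.eq.symm⟩ : Law.GT c c) = ω) =
      {(⟨ω.snd, ω.fst, ω.eq.symm⟩ : Law.GT c c)} := by
    ext l
    simp only [Finset.mem_filter, Finset.mem_univ, true_and, Finset.mem_singleton]
    constructor
    · rintro rfl
      rfl
    · rintro rfl
      rfl
  have h2 : (pairL P c).w (⟨ω.snd, ω.fst, ω.eq.symm⟩ : Law.GT c c) = (pairL P c).w ω := by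
    unfold pairL Law.glue
    simp only
    rw [← ω.eq, mul_comm (P.w _)]
  rw [← h2]
  refine Eq.trans ?_ (Finset.sum_singleton (f := fun l => (pairL P c).w l)
    (a := (⟨ω.snd, ω.fst, ω.eq.symm⟩ : Law.GT c c)))
  rw [← h1]

theorem finC4 : FinC4 := by
  intro Ω Ξ _ _ γ β d P c b D R bR Pi e hcb h Ω' _ T l ξ sl sξ hb hm
  have s' : Smp T (fun ω => (⟨(l ω).snd, (l ω).fst, (l ω).eq.symm⟩ : Law.GT c c)) (pairL P c) :=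
    sl.comp (fin_swap P c)
  have hbb : ∀ ω, b (l ω).snd = b (l ω).fst := fun ω => (hcb _ _ (l ω).eq).symm
  have e1 : (fun ω => b (l ω).snd) = fun ω => b (l ω).fst := funext hbb
  have m' : mi T (fun ω => (⟨(l ω).snd, (l ω).fst, (l ω).eq.symm⟩ : Law.GT c c)) ξ
      (fun ω => b (l ω).snd) = 0 := by
    rw [e1]
    exact mi_zero_of hm (fun ω ω' h _ => by rw [h]) (fun ω ω' h _ => h)
  have := h Ω' T (fun ω => (⟨(l ω).snd, (l ω).fst, (l ω).eq.symm⟩ : Law.GT c c)) ξ s' sξ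
    (fun ω => (hbb ω).trans (hb ω)) m'
  simp only [e1] at this
  exact this

/-- A13 -/
theorem pfinish : PFinish := pfinish_of finC1 finC2 finC4

end Vale.Agent.P127.Stk.Abs
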