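import Vale.Agent.P127.Stk.Abs.Basic

/-!
# P127 / Stk / Abs : if no new state gains more than `γ0`, then `Pi` absorbs `D`
-/

namespace Vale.Agent.P127.Stk.Abs

open Finset Vale.Agent.P127 Vale.Agent.P127.Stk

section core

variable {Ω : Type} [Fintype Ω] {Ξ M β G V : Type*}

/-- independence of `x` from both members of the pair `m1, m2` given `B` -/
theorem gain_indep (P : Law Ω) (x : Ω → Ξ) (m1 m2 : Ω → M) (B : Ω → β) (Z : Ω → V)
    (h1 : mi P x m1 B = 0) (h2 : mi P x m2 (fun ω => (B ω, Z ω)) = 0)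
    (hZ : ∀ ω ω', m1 ω = m1 ω' → Z ω = Z ω') : mi P x m2 B = 0 := by
  refine le_antisymm ?_ (mi_nonneg P _ _ _)
  have e1 : mi P x Z B = 0 := mi_zero_of h1 (fun _ _ e _ => e) (fun ω ω' e _ => hZ ω ω' e)
  have e2 := mi_pair P x Z m2 B
  have e3 : mi P x m2 (fun ω => (Z ω, B ω)) = mi P x m2 (fun ω => (B ω, Z ω)) :=
    mi_congr_cond P x m2
      (fun ω ω' _ _ e => by simp only [Prod.mk.injEq] at e ⊢; exact ⟨e.2, e.1⟩)
      (fun ω ω' _ _ e => by simp only [Prod.mk.injEq] at e ⊢; exact ⟨e.2, e.1⟩)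
  have e4 : mi P x m2 B ≤ mi P x (fun ω => (Z ω, m2 ω)) B :=
    mi_mono_right P x fun ω ω' _ _ e => by
      simp only [Prod.mk.injEq] at e
      exact e.1.2
  rw [e2, e1, e3, h2] at e4
  linarith

/-- the Shannon part of the proof -/
theorem gain_core [AddCommGroup G] (P : Law Ω) (x : Ω → Ξ) (m1 m2 : Ω → M) (B : Ω → β)
    (Z : Ω → V) (X Y D : Ω → G) {g r s t : ℝ}
    (h1 : mi P x m1 B = 0) (h2 : mi P (fun ω => (x ω, m1 ω)) m2 (fun ω => (B ω, Z ω)) = 0)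
    (hZ : ∀ ω ω', m1 ω = m1 ω' → Z ω = Z ω') (hX : ∀ ω ω', x ω = x ω' → X ω = X ω')
    (hY : ∀ ω ω', m2 ω = m2 ω' → Y ω = Y ω') (hD : ∀ ω ω', m1 ω = m1 ω' → D ω = D ω')
    (hc1 : mi P D Z B ≤ g) (hr : hc P (fun ω => X ω + Y ω) (fun ω => (B ω, Z ω)) ≤ r)
    (hs : hc P (fun ω => Y ω + D ω) (fun ω => (B ω, Z ω)) ≤ s + t)
    (hs' : hc P Y (fun ω => (B ω, Z ω)) = s) :
    hc P (fun ω => X ω + D ω) B ≤ r + t + g := by
  -- the condition may be enlarged by `Z`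
  have a1 : hc P (fun ω => X ω + D ω) B =
      hc P (fun ω => X ω + D ω) (fun ω => (Z ω, B ω)) + mi P (fun ω => X ω + D ω) Z B := by
    unfold mi
    ring
  have a2 : hc P (fun ω => X ω + D ω) (fun ω => (Z ω, B ω)) =
      hc P (fun ω => X ω + D ω) (fun ω => (B ω, Z ω)) :=
    hc_congr P (fun ω ω' _ _ e => congrArg Prod.fst e) (fun ω ω' _ _ e => congrArg Prod.fst e)
      (fun ω ω' _ _ e => by simp only [Prod.mk.injEq] at e ⊢; exact ⟨e.2, e.1⟩)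
      (fun ω ω' _ _ e => by simp only [Prod.mk.injEq] at e ⊢; exact ⟨e.2, e.1⟩)
  -- information of `X + D` and `Z`
  have a3 : mi P (fun ω => X ω + D ω) Z B ≤ mi P (fun ω => (D ω, X ω)) Z B :=
    mi_mono_left P Z fun ω ω' _ _ e => by
      simp only [Prod.mk.injEq] at e
      rw [e.1.1, e.1.2]
  have a4 : mi P (fun ω => (D ω, X ω)) Z B = mi P D Z B + mi P X Z (fun ω => (D ω, B ω)) := by
    rw [mi_symm P _ Z, mi_pair, mi_symm P Z D, mi_symm P Z X]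
  have a5 : mi P X Z (fun ω => (D ω, B ω)) = 0 := by
    have b1 : mi P m1 x B = 0 := by rw [mi_symm]; exact h1
    have b2 := mi_zero_cond b1 (W := D) fun ω ω' e _ => hD ω ω' e
    rw [mi_symm] at b2
    exact mi_zero_of b2 (fun ω ω' e _ => hX ω ω' e) (fun ω ω' e _ => hZ ω ω' e)
  -- independence given `(B, Z)`
  have b1 : mi P m1 x B = 0 := by rw [mi_symm]; exact h1
  have b2 : mi P m1 x (fun ω => (Z ω, B ω)) = 0 :=
    mi_zero_cond b1 (W := Z) fun ω ω' e _ => hZ ω ω' e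
  have b3 : mi P X D (fun ω => (B ω, Z ω)) = 0 := by
    rw [mi_congr_cond P X D (Z' := fun ω => (Z ω, B ω))
      (fun ω ω' _ _ e => by simp only [Prod.mk.injEq] at e ⊢; exact ⟨e.2, e.1⟩)
      (fun ω ω' _ _ e => by simp only [Prod.mk.injEq] at e ⊢; exact ⟨e.2, e.1⟩)]
    rw [mi_symm] at b2
    exact mi_zero_of b2 (fun ω ω' e _ => hX ω ω' e) (fun ω ω' e _ => hD ω ω' e)
  have b4 : mi P (fun ω => X ω + D ω) Y (fun ω => (B ω, Z ω)) = 0 :=
    mi_zero_of h2 (fun ω ω' e _ => by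
      simp only [Prod.mk.injEq] at e
      rw [hX ω ω' e.1, hD ω ω' e.2]) (fun ω ω' e _ => hY ω ω' e)
  have b5 : mi P (fun ω => (X ω, D ω)) Y (fun ω => (B ω, Z ω)) = 0 :=
    mi_zero_of h2 (fun ω ω' e _ => by
      simp only [Prod.mk.injEq] at e
      rw [hX ω ω' e.1, hD ω ω' e.2]) (fun ω ω' e _ => hY ω ω' e)
  have c1 := Add.add_lower' P (fun ω => X ω + D ω) Y (fun ω => (B ω, Z ω))
  have c2 : hc P X (fun ω => (B ω, Z ω)) + hc P Y (fun ω => (B ω, Z ω)) +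
      hc P D (fun ω => (B ω, Z ω)) - 0 ≤ hc P (fun ω => (X ω, Y ω, D ω)) (fun ω => (B ω, Z ω)) := by
    rw [mi_eq] at b3 b5
    have d1 : P.H (fun ω => ((X ω, D ω), B ω, Z ω)) = P.H (fun ω => (X ω, D ω, B ω, Z ω)) :=
      P.H_congr fun ω ω' => by simp only [Prod.mk.injEq]; tauto
    have d2 : P.H (fun ω => ((X ω, D ω), Y ω, B ω, Z ω)) =
        P.H (fun ω => ((X ω, Y ω, D ω), B ω, Z ω)) :=
      P.H_congr fun ω ω' => by simp only [Prod.mk.injEq]; tauto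
    unfold hc
    linarith
  have c3 := Add.madiman P X Y D (fun ω => (B ω, Z ω)) c2
  have c4 : hc P (fun ω => X ω + D ω + Y ω) (fun ω => (B ω, Z ω)) =
      hc P (fun ω => X ω + Y ω + D ω) (fun ω => (B ω, Z ω)) := by
    have : (fun ω => X ω + D ω + Y ω) = (fun ω => X ω + Y ω + D ω) := by
      funext ω
      abel
    rw [this]
  linarith

end core

/-- A10 -/
theorem pgain : PGain := by
  intro Ω _ β κ d P B q x0 ρ η g γ0 f S C hgain Ω' _ T l ξ hl hξ hb hI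
  -- the first extension
  obtain ⟨Ω1, _, T1, p1, p2, sp1, sp2, e1, i1⟩ := pext Ω' C.Ωm _ T C.M l C.l
    (fun y => (hl y).trans (C.smp_l y).symm)
  -- the second extension
  obtain ⟨Ω2, _, T2, r1, r2, sr1, sr2, e2, i2⟩ := pext Ω1 C.Ωm _ T1 C.M
    (fun ω => (S.b (C.s (p2 ω)), C.Z (p2 ω))) (fun m => (S.b (C.s m), C.Z m))
    (fun y => sp2.pr (fun m => (S.b (C.s m), C.Z m)) y)
  have hB1 : ∀ ω, S.b (l (p1 ω)).fst = S.b (C.s (p2 ω)) := fun ω => by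
    rw [e1 ω, C.hb]
  -- `ξ` and `m1` given `b`
  have j1 : mi T1 (fun ω => ξ (p1 ω)) p2 (fun ω => S.b (C.s (p2 ω))) = 0 := by
    have k1 : mi T1 (fun ω => ξ (p1 ω)) (fun ω => l (p1 ω)) (fun ω => S.b (C.s (p2 ω))) = 0 := by
      have := sp1.mi ξ l (fun ω => S.b (l ω).fst)
      simp only [hB1] at this
      rw [this, mi_symm]
      exact hI
    have k2 : mi T1 (fun ω => ξ (p1 ω)) p2 (fun ω => l (p1 ω)) = 0 :=
      mi_zero_of i1 (fun ω ω' e _ => by rw [e]) (fun _ _ e _ => e)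
    have k3 : mi T1 (fun ω => ξ (p1 ω)) p2 (fun ω => (l (p1 ω), S.b (C.s (p2 ω)))) = 0 := by
      rw [← k2]
      refine mi_congr_cond T1 _ _ (fun ω ω' _ _ e => ?_) (fun ω ω' _ _ e => congrArg Prod.fst e)
      simp only [Prod.mk.injEq]
      refine ⟨e, ?_⟩
      rw [← hB1, ← hB1, e]
    have k4 := mi_pair T1 (fun ω => ξ (p1 ω)) (fun ω => l (p1 ω)) p2 (fun ω => S.b (C.s (p2 ω)))
    have k5 : mi T1 (fun ω => ξ (p1 ω)) p2 (fun ω => S.b (C.s (p2 ω))) ≤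
        mi T1 (fun ω => ξ (p1 ω)) (fun ω => (l (p1 ω), p2 ω)) (fun ω => S.b (C.s (p2 ω))) :=
      mi_mono_right T1 _ fun ω ω' _ _ e => by
        simp only [Prod.mk.injEq] at e
        exact e.1.2
    refine le_antisymm ?_ (mi_nonneg T1 _ _ _)
    linarith
  have j2 : mi T2 (fun ω => ξ (p1 (r1 ω))) (fun ω => p2 (r1 ω))
      (fun ω => S.b (C.s (p2 (r1 ω)))) = 0 := by
    rw [← j1]
    exact sr1.mi (fun ω => ξ (p1 ω)) p2 (fun ω => S.b (C.s (p2 ω)))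
  have j3 : mi T2 (fun ω => (ξ (p1 (r1 ω)), p2 (r1 ω))) r2
      (fun ω => (S.b (C.s (p2 (r1 ω))), C.Z (p2 (r1 ω)))) = 0 :=
    mi_zero_of i2 (fun ω ω' e _ => by rw [e]) (fun _ _ e _ => e)
  have j4 : mi T2 (fun ω => ξ (p1 (r1 ω))) r2
      (fun ω => (S.b (C.s (p2 (r1 ω))), C.Z (p2 (r1 ω)))) = 0 :=
    mi_zero_of i2 (fun ω ω' e _ => by rw [e]) (fun _ _ e _ => e)
  have j5 : mi T2 (fun ω => ξ (p1 (r1 ω))) r2 (fun ω => S.b (C.s (p2 (r1 ω)))) = 0 :=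
    gain_indep T2 _ (fun ω => p2 (r1 ω)) r2 _ (fun ω => C.Z (p2 (r1 ω))) j2 j4
      (fun ω ω' e => by
        have e' : p2 (r1 ω) = p2 (r1 ω') := e
        rw [e'])
  have e2a : ∀ ω, S.b (C.s (p2 (r1 ω))) = S.b (C.s (r2 ω)) := fun ω => congrArg Prod.fst (e2 ω)
  have e2b : ∀ ω, C.Z (p2 (r1 ω)) = C.Z (r2 ω) := fun ω => congrArg Prod.snd (e2 ω)
  -- the samples
  have s1 : Smp T2 (fun ω => p2 (r1 ω)) C.M := sr1.comp sp2
  have s2 : Smp T2 (fun ω => p1 (r1 ω)) T := sr1.comp sp1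
  have s3 : Smp T2 (fun ω => ξ (p1 (r1 ω))) S.R := s2.comp hξ
  have g1 := hgain Ω2 T2 (fun ω => ξ (p1 (r1 ω))) r2 s3 sr2
    (fun ω => (hb (p1 (r1 ω))).symm.trans ((hB1 (r1 ω)).trans (e2a ω))) (by
      simp only [e2a] at j5
      exact j5)
  have g2 := C.abs2 Ω2 T2 (fun ω => p2 (r1 ω)) r2 s1 sr2 e2 (mi_zero_of i2
    (fun ω ω' e _ => by rw [e]) (fun _ _ e _ => e))
  have g3 : mi T2 (fun ω => f (S.π (C.l (p2 (r1 ω))).snd) - f (S.π (C.l (p2 (r1 ω))).fst))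
      (fun ω => C.Z (p2 (r1 ω))) (fun ω => S.b (C.s (p2 (r1 ω)))) ≤ g := by
    refine le_trans (le_of_eq ?_) C.costD
    exact s1.mi (fun m => f (S.π (C.l m).snd) - f (S.π (C.l m).fst)) C.Z (fun m => S.b (C.s m))
  have g4 : hc T2 (fun ω => C.Pi (r2 ω)) (fun ω => (S.b (C.s (p2 (r1 ω))), C.Z (p2 (r1 ω)))) =
      hc C.M C.Pi (fun m => (S.b (C.s m), C.Z m)) := by
    rw [← sr2.hc C.Pi (fun m => (S.b (C.s m), C.Z m))]
    simp only [e2a, e2b]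
  have main := gain_core T2 (fun ω => ξ (p1 (r1 ω))) (fun ω => p2 (r1 ω)) r2
    (fun ω => S.b (C.s (p2 (r1 ω)))) (fun ω => C.Z (p2 (r1 ω)))
    (fun ω => S.Pi (ξ (p1 (r1 ω)))) (fun ω => C.Pi (r2 ω))
    (fun ω => f (S.π (C.l (p2 (r1 ω))).snd) - f (S.π (C.l (p2 (r1 ω))).fst))
    (r := hc S.R S.Pi S.bR + γ0) j2 j3
    (fun ω ω' e => by
      have e' : p2 (r1 ω) = p2 (r1 ω') := e
      rw [e'])
    (fun ω ω' e => by
      have e' : ξ (p1 (r1 ω)) = ξ (p1 (r1 ω')) := e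
      rw [e'])
    (fun ω ω' e => by rw [e])
    (fun ω ω' e => by
      have e' : p2 (r1 ω) = p2 (r1 ω') := e
      rw [e']) g3 (by
      simp only [e2a, e2b]
      exact g1) g2 g4
  have fin : hc T2 (fun ω => S.Pi (ξ (p1 (r1 ω))) +
      (f (S.π (C.l (p2 (r1 ω))).snd) - f (S.π (C.l (p2 (r1 ω))).fst)))
      (fun ω => S.b (C.s (p2 (r1 ω)))) =
      hc T (fun ω => S.Pi (ξ ω) + (f (S.π (l ω).snd) - f (S.π (l ω).fst)))
      (fun ω => S.b (l ω).fst) := by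
    rw [← s2.hc (fun ω => S.Pi (ξ ω) + (f (S.π (l ω).snd) - f (S.π (l ω).fst)))
      (fun ω => S.b (l ω).fst)]
    simp only [e1]
    simp only [← C.hb]
  rw [fin] at main
  linarith

end Vale.Agent.P127.Stk.Abs
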