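import Vale.Agent.P127.Stk.Abs.Basic

namespace Vale.Agent.P127.Stk.Abs

open Finset Vale.Agent.P127 Vale.Agent.P127.Stk

theorem pinit : PInit := by
  intro Ω _ β κ d P B q x0 ρ e he hx
  refine ⟨{
    Ωs := Ω
    finS := inferInstance
    Ps := P
    π := fun ω => ω
    βs := β
    b := B
    Ξ := Ω
    finX := inferInstance
    R := P
    bR := B
    Pi := fun _ => 0
    smp := Smp.refl P
    det := fun w w' h => h
    cost := ?_
    same := fun y => rfl
    abs := ?_ }, hc_nonneg _ _ _⟩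
  · refine le_trans (le_of_eq ?_) he
    have h1 : hc P (fun ω => ω) (fun ω => (B ω, B ω)) = hc P (fun ω => ω) B := by
      unfold hc
      rw [P.H_congr (X := fun ω => (ω, B ω, B ω)) (Y := fun ω => (ω, B ω)) (by intro ω ω'; simp),
        P.H_congr (X := fun ω => (B ω, B ω)) (Y := B) (by intro ω ω'; simp)]
    unfold mi
    rw [h1, sub_self]
  · intro Ω' _ T w ξ hw hξ hb hci
    have h1 : hc T (fun ω => x0 (w ω) + 0) (fun ω => (q (w ω), B (w ω))) ≤
        hc T (fun ω => x0 (w ω)) (fun ω => B (w ω)) := by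
      simp only [add_zero]
      exact Add.hc_anti T fun ω ω' e => by
        simp only [Prod.mk.injEq] at e
        exact e.2
    rw [hw.hc x0 B] at h1
    exact h1.trans hx

theorem pbound : PBound := by
  intro Ω _ β κ d P B q x0 ρ η S
  obtain ⟨Ω', _, T, p1, p2, h1, h2, h3, h4⟩ := pext S.Ωs S.Ξ S.βs S.Ps S.R S.b S.bR S.same
  have h5 := S.abs Ω' T p1 p2 h1 h2 h3 h4
  have h6 : hc S.R S.Pi S.bR = hc T (fun ω => S.Pi (p2 ω)) (fun ω => S.b (p1 ω)) := by
    rw [← h2.hc S.Pi S.bR]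
    have : (fun ω => S.bR (p2 ω)) = fun ω => S.b (p1 ω) := funext fun ω => (h3 ω).symm
    rw [this]
  have h7 : mi T p1 (fun ω => S.Pi (p2 ω)) (fun ω => S.b (p1 ω)) = 0 :=
    mi_zero_of h4 (fun ω ω' e _ => e) (fun ω ω' e _ => by rw [e])
  rw [mi_symm] at h7
  have h8 : hc T (fun ω => S.Pi (p2 ω)) (fun ω => (p1 ω, S.b (p1 ω))) =
      hc T (fun ω => x0 (S.π (p1 ω)) + S.Pi (p2 ω)) (fun ω => (p1 ω, S.b (p1 ω))) := by
    refine Add.hc_eq T fun ω ω' e => ?_
    simp only [Prod.mk.injEq] at e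
    rw [e.1]
    exact add_right_inj _
  have h9 : hc T (fun ω => x0 (S.π (p1 ω)) + S.Pi (p2 ω)) (fun ω => (p1 ω, S.b (p1 ω))) ≤
      hc T (fun ω => x0 (S.π (p1 ω)) + S.Pi (p2 ω)) (fun ω => (q (S.π (p1 ω)), S.b (p1 ω))) :=
    Add.hc_anti T fun ω ω' e => by
      simp only [Prod.mk.injEq] at e
      rw [e.1]
  have h10 : hc T (fun ω => S.Pi (p2 ω)) (fun ω => S.b (p1 ω)) -
      hc T (fun ω => S.Pi (p2 ω)) (fun ω => (p1 ω, S.b (p1 ω))) = 0 := h7
  linarith

end Vale.Agent.P127.Stk.Abs
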