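import Vale.Agent.P127.Stk.Abs.Basic

/-!
# P127 / Stk / Abs : A9, new states
-/

namespace Vale.Agent.P127.Stk.Abs

open Finset Vale.Agent.P127 Vale.Agent.P127.Stk

section aux

variable {Ω : Type} [Fintype Ω] {S T U V W : Type*} (P : Law Ω)

/-- the condition may be enlarged at the cost of the information -/
theorem pn_hc_ge {X : Ω → S} {X' : Ω → V} {Y : Ω → T} {Z : Ω → U} {q : Ω → W} {g : ℝ}
    (h : mi P X' Y Z ≤ g) (hX : ∀ ω ω', X' ω = X' ω' → X ω = X ω')
    (hq : ∀ ω ω', X' ω = X' ω' → q ω = q ω') :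
    hc P X (fun ω => (q ω, Z ω)) - g ≤ hc P X (fun ω => (q ω, Y ω, Z ω)) := by
  have h1 : mi P X Y (fun ω => (q ω, Z ω)) ≤ g := by
    refine le_trans ?_ h
    refine le_trans (mi_mono_left P Y (X' := X') ?_) (mi_cond_le P Y Z ?_)
    · intro ω ω' _ _ e
      simp only [Prod.mk.injEq] at e
      exact hX ω ω' e.1
    · intro ω ω' _ _ e
      simp only [Prod.mk.injEq] at e
      exact hq ω ω' e.1
  unfold mi at h1
  have h2 : hc P X (fun ω => (Y ω, q ω, Z ω)) = hc P X (fun ω => (q ω, Y ω, Z ω)) := by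
    refine hc_congr P (fun _ _ _ _ e => ?_) (fun _ _ _ _ e => ?_) (fun _ _ _ _ e => ?_)
      (fun _ _ _ _ e => ?_)
    · simp only [Prod.mk.injEq] at e
      exact e.1
    · simp only [Prod.mk.injEq] at e
      exact e.1
    · simp only [Prod.mk.injEq] at e ⊢
      exact ⟨e.2.1, e.1, e.2.2⟩
    · simp only [Prod.mk.injEq] at e ⊢
      exact ⟨e.2.1, e.1, e.2.2⟩
  linarith

/-- `hc` of a triple of independent variables -/
theorem pn_indep {X : Ω → S} {Y : Ω → T} {Z : Ω → U} {C : Ω → V}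
    (h1 : mi P Y (fun ω => (X ω, Z ω)) C = 0) (h2 : mi P X Z C = 0) :
    hc P X C + hc P Y C + hc P Z C - 0 ≤ hc P (fun ω => (X ω, Y ω, Z ω)) C := by
  have e1 : hc P (fun ω => (X ω, Y ω, Z ω)) C = hc P (fun ω => (Y ω, (X ω, Z ω))) C := by
    refine hc_congr P (fun _ _ _ _ e => ?_) (fun _ _ _ _ e => ?_) (fun _ _ _ _ e => e)
      (fun _ _ _ _ e => e)
    · simp only [Prod.mk.injEq] at e ⊢
      exact ⟨e.1.2.1, e.1.1, e.1.2.2⟩
    · simp only [Prod.mk.injEq] at e ⊢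
      exact ⟨e.1.2.1, e.1.1, e.1.2.2⟩
  rw [e1, hc_pair P Y (fun ω => (X ω, Z ω)) C]
  rw [mi_symm] at h1 h2
  unfold mi at h1 h2
  rw [hc_pair P X Z C] at h1
  linarith

end aux

/-- A9 with the hypothesis `0 ≤ e` -/
theorem pn_new {Ω : Type} [Fintype Ω] {β κ : Type} {d : ℕ} (P : Law Ω) (B : Ω → β)
    (q : Ω → κ) (x0 : Ω → Fin d → ℤ) (ρ η g e : ℝ) (f : Ω → Fin d → ℤ)
    (S : State P B q x0 ρ η) (C : S.Ch f g) (he : 0 ≤ e)
    (h0 : ρ - e ≤ hc P x0 (fun ω => (q ω, B ω)))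
    (Ω' : Type) [Fintype Ω'] (T : Law Ω') (ξ : Ω' → S.Ξ) (m : Ω' → C.Ωm) (hξ : Smp T ξ S.R)
    (hm : Smp T m C.M) (hb : ∀ w, S.bR (ξ w) = S.b (C.s (m w)))
    (hi : mi T ξ m (fun w => S.b (C.s (m w))) = 0) :
    ∃ S' : State P B q x0 ρ (2 * η + 2 * g + e), hc S'.R S'.Pi S'.bR =
      hc T (fun w => S.Pi (ξ w) + C.Pi (m w)) (fun w => (S.b (C.s (m w)), C.Z (m w))) := by
  have hη : 0 ≤ η := (mi_nonneg _ _ _ _).trans S.cost
  have hg : 0 ≤ g := (mi_nonneg _ _ _ _).trans C.cost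
  have hc1 : mi C.M (fun a => S.π (C.s a)) (fun a => S.b (C.s a)) (fun a => B (S.π (C.s a))) ≤ η := by
    rw [C.smp_s.mi S.π S.b (fun a => B (S.π a))]
    exact S.cost
  refine ⟨{
    Ωs := C.Ωm
    finS := C.fin
    Ps := C.M
    π := fun a => S.π (C.s a)
    βs := S.βs × (Fin d → ℤ)
    b := fun a => (S.b (C.s a), C.Z a)
    Ξ := Ω'
    finX := inferInstance
    R := T
    bR := fun w => (S.b (C.s (m w)), C.Z (m w))
    Pi := fun w => S.Pi (ξ w) + C.Pi (m w)
    smp := ?_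
    det := ?_
    cost := ?_
    same := ?_
    abs := ?_ }, rfl⟩
  · exact C.smp_s.comp S.smp
  · intro w w' h
    simp only [Prod.mk.injEq] at h
    exact S.det _ _ h.1
  · rw [mi_pair]
    have h2 : mi C.M (fun a => S.π (C.s a)) C.Z (fun a => (S.b (C.s a), B (S.π (C.s a)))) ≤ g := by
      rw [mi_congr_cond C.M (fun a => S.π (C.s a)) C.Z
        (Z := fun a => (S.b (C.s a), B (S.π (C.s a)))) (Z' := fun a => S.b (C.s a))
        (fun ω ω' _ _ h => Prod.ext h (S.det _ _ h)) (fun ω ω' _ _ h => congrArg Prod.fst h)]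
      refine le_trans (mi_mono_left C.M C.Z (X' := C.s) ?_) C.cost
      intro ω ω' _ _ h
      simp only [Prod.mk.injEq] at h
      beta_reduce
      rw [h.1]
    linarith
  · intro y
    exact (hm.pr (fun a => (S.b (C.s a), C.Z a)) y).symm
  · intro Υ _ T' w τ hw hτ hbb hci
    have hbb1 : ∀ ω, S.b (C.s (w ω)) = S.b (C.s (m (τ ω))) := fun ω =>
      congrArg Prod.fst (hbb ω)
    have hbb2 : ∀ ω, C.Z (w ω) = C.Z (m (τ ω)) := fun ω => congrArg Prod.snd (hbb ω)
    have hmτ : Smp T' (fun ω => m (τ ω)) C.M := hτ.comp hm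
    have hξτ : Smp T' (fun ω => ξ (τ ω)) S.R := hτ.comp hξ
    -- independence of `ξ` and `m` in `T'`
    have hi1 : mi T' (fun ω => ξ (τ ω)) (fun ω => m (τ ω)) (fun ω => S.b (C.s (w ω))) = 0 := by
      have h1 := hτ.mi ξ m (fun a => S.b (C.s (m a)))
      rw [hi] at h1
      rw [← h1]
      exact mi_congr_cond T' _ _ (fun ω ω' _ _ h => by rw [hbb1, hbb1, h])
        (fun ω ω' _ _ h => by rw [← hbb1, ← hbb1, h])
    -- the same given `(b, Z)`
    have hi2 : mi T' (fun ω => m (τ ω)) (fun ω => ξ (τ ω))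
        (fun ω => (S.b (C.s (w ω)), C.Z (w ω))) = 0 := by
      rw [mi_symm] at hi1
      have h1 := mi_zero_cond (W := fun ω => C.Z (w ω)) hi1 (fun ω ω' h _ => by
        rw [hbb2, hbb2, h])
      rw [← h1]
      exact mi_congr_cond T' _ _ (fun ω ω' _ _ h => by
        simp only [Prod.mk.injEq] at h ⊢
        exact ⟨h.2, h.1⟩) (fun ω ω' _ _ h => by
        simp only [Prod.mk.injEq] at h ⊢
        exact ⟨h.2, h.1⟩)
    -- `w` and `ξ` are independent given `b`
    have hi3 : mi T' (fun ω => C.s (w ω)) (fun ω => ξ (τ ω)) (fun ω => S.b (C.s (w ω))) = 0 := by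
      refine le_antisymm ?_ (mi_nonneg _ _ _ _)
      have h1 : mi T' (fun ω => C.s (w ω)) (fun ω => ξ (τ ω)) (fun ω => S.b (C.s (w ω))) ≤
          mi T' (fun ω => ξ (τ ω)) (fun ω => (C.Z (w ω), C.s (w ω)))
            (fun ω => S.b (C.s (w ω))) := by
        rw [mi_symm]
        refine mi_mono_right T' _ ?_
        intro ω ω' _ _ h
        simp only [Prod.mk.injEq] at h
        exact h.1.2
      refine h1.trans ?_
      rw [mi_pair]
      have h2 : mi T' (fun ω => ξ (τ ω)) (fun ω => C.Z (w ω)) (fun ω => S.b (C.s (w ω))) ≤ 0 := by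
        rw [← hi1]
        refine mi_mono_right T' _ ?_
        intro ω ω' _ _ h
        simp only [Prod.mk.injEq] at h
        beta_reduce
        rw [hbb2, hbb2, h.1]
      have h3 : mi T' (fun ω => ξ (τ ω)) (fun ω => C.s (w ω))
          (fun ω => (C.Z (w ω), S.b (C.s (w ω)))) ≤ 0 := by
        rw [mi_symm, ← hci]
        rw [mi_congr_cond T' w τ (Z := fun ω => (S.b (C.s (w ω)), C.Z (w ω)))
          (Z' := fun ω => (C.Z (w ω), S.b (C.s (w ω)))) (fun ω ω' _ _ h => by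
            simp only [Prod.mk.injEq] at h ⊢
            exact ⟨h.2, h.1⟩) (fun ω ω' _ _ h => by
            simp only [Prod.mk.injEq] at h ⊢
            exact ⟨h.2, h.1⟩)]
        refine (mi_mono_left T' _ (X' := w) ?_).trans (mi_mono_right T' _ (Y' := τ) ?_)
        · intro ω ω' _ _ h
          simp only [Prod.mk.injEq] at h
          beta_reduce
          rw [h.1]
        · intro ω ω' _ _ h
          simp only [Prod.mk.injEq] at h
          beta_reduce
          rw [h.1]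
      linarith
    -- (i)
    have p1 : hc T' (fun ω => x0 (S.π (C.s (w ω))) + S.Pi (ξ (τ ω)))
        (fun ω => (q (S.π (C.s (w ω))), S.b (C.s (w ω)))) ≤ ρ + η :=
      S.abs Υ T' (fun ω => C.s (w ω)) (fun ω => ξ (τ ω)) (hw.comp C.smp_s) hξτ
        (fun ω => (hbb1 ω).trans (hb (τ ω)).symm) hi3
    -- (ii)
    have p2 : hc T' (fun ω => x0 (S.π (C.s (w ω))) + C.Pi (m (τ ω)))
        (fun ω => (q (S.π (C.s (w ω))), S.b (C.s (w ω)), C.Z (w ω))) ≤ ρ + g := by
      refine C.abs1 Υ T' w (fun ω => m (τ ω)) hw hmτ hbb ?_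
      exact mi_zero_of hci (fun _ _ h _ => h) (fun _ _ h _ => by rw [h])
    -- (iii)
    have p3 : ρ - e - η - g ≤ hc T' (fun ω => x0 (S.π (C.s (w ω))))
        (fun ω => (q (S.π (C.s (w ω))), S.b (C.s (w ω)), C.Z (w ω))) := by
      have h1 := hw.hc (fun a => x0 (S.π (C.s a)))
        (fun a => (q (S.π (C.s a)), S.b (C.s a), C.Z a))
      rw [h1]
      have h2 := pn_hc_ge C.M (X := fun a => x0 (S.π (C.s a))) (q := fun a => q (S.π (C.s a)))
        C.cost (fun ω ω' h => by rw [h]) (fun ω ω' h => by rw [h])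
      have h3 : hc C.M (fun a => x0 (S.π (C.s a)))
          (fun a => (q (S.π (C.s a)), C.Z a, S.b (C.s a))) =
          hc C.M (fun a => x0 (S.π (C.s a)))
          (fun a => (q (S.π (C.s a)), S.b (C.s a), C.Z a)) := by
        refine hc_congr C.M (fun _ _ _ _ e => congrArg Prod.fst e)
          (fun _ _ _ _ e => congrArg Prod.fst e) (fun _ _ _ _ e => ?_) (fun _ _ _ _ e => ?_)
        · simp only [Prod.mk.injEq] at e ⊢
          exact ⟨e.1, e.2.2, e.2.1⟩
        · simp only [Prod.mk.injEq] at e ⊢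
          exact ⟨e.1, e.2.2, e.2.1⟩
      have h4 := C.smp_s.hc (fun a => x0 (S.π a)) (fun a => (q (S.π a), S.b a))
      have h5 := pn_hc_ge S.Ps (X := fun a => x0 (S.π a)) (q := fun a => q (S.π a))
        S.cost (fun ω ω' h => by rw [h]) (fun ω ω' h => by rw [h])
      have h6 : hc S.Ps (fun a => x0 (S.π a)) (fun a => (q (S.π a), S.b a, B (S.π a))) =
          hc S.Ps (fun a => x0 (S.π a)) (fun a => (q (S.π a), S.b a)) := by
        refine hc_congr S.Ps (fun _ _ _ _ e => congrArg Prod.fst e)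
          (fun _ _ _ _ e => congrArg Prod.fst e) (fun _ _ _ _ e => ?_) (fun _ _ _ _ e => ?_)
        · simp only [Prod.mk.injEq] at e ⊢
          exact ⟨e.1, e.2, S.det _ _ e.2⟩
        · simp only [Prod.mk.injEq] at e ⊢
          exact ⟨e.1, e.2.1⟩
      have h7 := S.smp.hc x0 (fun a => (q a, B a))
      linarith
    -- independence
    have q1 : mi T' w (fun ω => (ξ (τ ω), m (τ ω)))
        (fun ω => (S.b (C.s (w ω)), C.Z (w ω))) = 0 :=
      mi_zero_of hci (fun _ _ h _ => h) (fun _ _ h _ => by rw [h])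
    have q2 := mi_zero_cond (W := fun ω => q (S.π (C.s (w ω)))) q1
      (fun ω ω' h _ => by rw [h])
    have q3 : mi T' (fun ω => x0 (S.π (C.s (w ω))))
        (fun ω => (S.Pi (ξ (τ ω)), C.Pi (m (τ ω))))
        (fun ω => (q (S.π (C.s (w ω))), S.b (C.s (w ω)), C.Z (w ω))) = 0 :=
      mi_zero_of q2 (fun _ _ h _ => by rw [h]) (fun _ _ h _ => by
        simp only [Prod.mk.injEq] at h ⊢
        rw [h.1, h.2]
        exact ⟨rfl, rfl⟩)
    have q4 : mi T' (fun ω => ξ (τ ω)) (fun ω => (m (τ ω), w ω))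
        (fun ω => (S.b (C.s (w ω)), C.Z (w ω))) = 0 := by
      rw [mi_pair, mi_symm T' (fun ω => ξ (τ ω)) (fun ω => m (τ ω)), hi2, zero_add]
      have h1 := mi_cond_le T' (X := fun ω => (ξ (τ ω), m (τ ω))) w
        (W := fun ω => m (τ ω)) (fun ω => (S.b (C.s (w ω)), C.Z (w ω)))
        (fun ω ω' _ _ h => by
          simp only [Prod.mk.injEq] at h
          exact h.1.2)
      rw [mi_symm T' (fun ω => (ξ (τ ω), m (τ ω))) w (fun ω => (S.b (C.s (w ω)), C.Z (w ω))),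
        q1] at h1
      refine le_antisymm ?_ (mi_nonneg _ _ _ _)
      refine (mi_mono_left T' w (X' := fun ω => (ξ (τ ω), m (τ ω))) ?_).trans h1
      intro ω ω' _ _ h
      simp only [Prod.mk.injEq] at h
      exact h.1.1
    have q5 : mi T' (fun ω => (m (τ ω), w ω)) (fun ω => ξ (τ ω))
        (fun ω => (q (S.π (C.s (w ω))), S.b (C.s (w ω)), C.Z (w ω))) = 0 := by
      rw [mi_symm] at q4
      exact mi_zero_cond (W := fun ω => q (S.π (C.s (w ω)))) q4 (fun ω ω' h _ => by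
        simp only [Prod.mk.injEq] at h
        rw [h.2])
    have q6 : mi T' (fun ω => S.Pi (ξ (τ ω))) (fun ω => C.Pi (m (τ ω)))
        (fun ω => (q (S.π (C.s (w ω))), S.b (C.s (w ω)), C.Z (w ω))) = 0 := by
      rw [mi_symm] at q5
      exact mi_zero_of q5 (fun _ _ h _ => by rw [h]) (fun _ _ h _ => by
        simp only [Prod.mk.injEq] at h
        rw [h.1])
    have q7 := Add.madiman T' (fun ω => S.Pi (ξ (τ ω))) (fun ω => x0 (S.π (C.s (w ω))))
      (fun ω => C.Pi (m (τ ω))) (fun ω => (q (S.π (C.s (w ω))), S.b (C.s (w ω)), C.Z (w ω)))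
      (pn_indep T' q3 q6)
    have q8 : hc T' (fun ω => S.Pi (ξ (τ ω)) + x0 (S.π (C.s (w ω))))
        (fun ω => (q (S.π (C.s (w ω))), S.b (C.s (w ω)), C.Z (w ω))) ≤ ρ + η := by
      refine le_trans ?_ p1
      have h1 : (fun ω => S.Pi (ξ (τ ω)) + x0 (S.π (C.s (w ω)))) =
          (fun ω => x0 (S.π (C.s (w ω))) + S.Pi (ξ (τ ω))) := by
        funext ω
        exact add_comm _ _
      rw [h1]
      exact hc_mono_right T' _ fun ω ω' _ _ e => by
        simp only [Prod.mk.injEq] at e ⊢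
        exact ⟨e.1, e.2.1⟩
    have q9 : (fun ω => x0 (S.π (C.s (w ω))) + (S.Pi (ξ (τ ω)) + C.Pi (m (τ ω)))) =
        (fun ω => S.Pi (ξ (τ ω)) + x0 (S.π (C.s (w ω))) + C.Pi (m (τ ω))) := by
      funext ω
      abel
    show hc T' (fun ω => x0 (S.π (C.s (w ω))) + (S.Pi (ξ (τ ω)) + C.Pi (m (τ ω))))
      (fun ω => (q (S.π (C.s (w ω))), S.b (C.s (w ω)), C.Z (w ω))) ≤ _
    rw [q9]
    linarith

/-- A9 -/
theorem pnew : PNew := by
  intro Ω _ β κ d P B q x0 ρ η g e f S C he h0 Ω' _ T ξ m hξ hm hb hi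
  exact pn_new P B q x0 ρ η g e f S C he h0 Ω' T ξ m hξ hm hb hi

end Vale.Agent.P127.Stk.Abs
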