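import Vale.Agent.P127.Stk.Abs.Main
import Vale.Agent.P127.Stk.Abs.Chain
import Vale.Agent.P127.Stk.Abs.ChainBase
import Vale.Agent.P127.Stk.Abs.ChainTriple
import Vale.Agent.P127.Stk.Abs.ChainFacts
import Vale.Agent.P127.Stk.Abs.ChainLink
import Vale.Agent.P127.Stk.Abs.ChainAbsA
import Vale.Agent.P127.Stk.Abs.ChainAbsB
import Vale.Agent.P127.Stk.Abs.New
import Vale.Agent.P127.Stk.Abs.Gain
import Vale.Agent.P127.Stk.Abs.Init
import Vale.Agent.P127.Stk.Abs.FinComp

/-!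
# P127 / Stk : the absorption lemma
-/

namespace Vale.Agent.P127.Stk

/-- the absorption lemma (PROOF.md, section 4) -/
theorem pabs : PAbs :=
  Abs.abs_of (Abs.chain_of Abs.pbaseLink Abs.ptriple Abs.pfacts Abs.ptripleLink Abs.pabsA
    Abs.pabsB) Abs.pnew Abs.pgain Abs.pbound Abs.pinit Abs.pfinish

end Vale.Agent.P127.Stk
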