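import Vale.Agent.P127.Stk.AbsStmt

/-!
# P127 / Stk / Abs : definitions and exact statements of the parts of the absorption lemma
-/

namespace Vale.Agent.P127.Stk.Abs

open Finset Vale.Agent.P127 Vale.Agent.P127.Stk

variable {Ω Ω' Ξ Λ : Type} [Fintype Ω] [Fintype Ω'] [Fintype Ξ] [Fintype Λ] {β κ γ : Type} {d : ℕ}

/-- `p` is a sample of `P` under `T` -/
def Smp (T : Law Ω') (p : Ω' → Ω) (P : Law Ω) : Prop := ∀ ω, T.pr p ω = P.w ω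

/-- the law of two samples with the same value of `c`, conditionally independent given it -/
noncomputable def pairL (P : Law Ω) (c : Ω → γ) : Law (Law.GT c c) :=
  Law.glue P P c c (fun _ => rfl)

/-- the variable `x` of `P` absorbs the independent variable `Pi` of `R`:
`H(x + Pi | q, b) ≤ r` for samples of `P` and `R` conditionally independent given `b` -/
def Abs1 (P : Law Ω) (b : Ω → β) (q : Ω → κ) (x : Ω → Fin d → ℤ)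
    (R : Law Ξ) (bR : Ξ → β) (Pi : Ξ → Fin d → ℤ) (r : ℝ) : Prop :=
  ∀ (Ω' : Type) [Fintype Ω'] (T : Law Ω') (w : Ω' → Ω) (ξ : Ω' → Ξ), Smp T w P → Smp T ξ R →
    (∀ ω, b (w ω) = bR (ξ ω)) → mi T w ξ (fun ω => b (w ω)) = 0 →
    hc T (fun ω => x (w ω) + Pi (ξ ω)) (fun ω => (q (w ω), b (w ω))) ≤ r

/-- the variable `Pi` of `R` absorbs the independent variable `D` of `L`, with loss `e` -/
def Abs2 (L : Law Λ) (bL : Λ → β) (D : Λ → Fin d → ℤ)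
    (R : Law Ξ) (bR : Ξ → β) (Pi : Ξ → Fin d → ℤ) (e : ℝ) : Prop :=
  ∀ (Ω' : Type) [Fintype Ω'] (T : Law Ω') (l : Ω' → Λ) (ξ : Ω' → Ξ), Smp T l L → Smp T ξ R →
    (∀ ω, bL (l ω) = bR (ξ ω)) → mi T l ξ (fun ω => bL (l ω)) = 0 →
    hc T (fun ω => Pi (ξ ω) + D (l ω)) (fun ω => bL (l ω)) ≤ hc R Pi bR + e

/-- output of the chain argument: `Z` is nearly independent of the sample `s` and of `D`, and
`Pi` (a copy of which, conditionally independent given `(b, Z)`, is absorbed by `x0`) absorbs `D` -/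
structure Chain (P : Law Ω) (b : Ω → β) (q : Ω → κ) (x0 : Ω → Fin d → ℤ)
    (L : Law Λ) (bL : Λ → β) (D : Λ → Fin d → ℤ) (ρ g : ℝ) : Type 1 where
  Ωm : Type
  fin : Fintype Ωm
  M : Law Ωm
  s : Ωm → Ω
  l : Ωm → Λ
  Z : Ωm → Fin d → ℤ
  Pi : Ωm → Fin d → ℤ
  smp_s : Smp M s P
  smp_l : Smp M l L
  hb : ∀ m, b (s m) = bL (l m)
  cost : mi M s Z (fun m => b (s m)) ≤ g
  costD : mi M (fun m => D (l m)) Z (fun m => b (s m)) ≤ g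
  abs1 : Abs1 M (fun m => (b (s m), Z m)) (fun m => q (s m)) (fun m => x0 (s m))
    M (fun m => (b (s m), Z m)) Pi (ρ + g)
  abs2 : Abs2 M (fun m => (b (s m), Z m)) (fun m => D (l m)) M (fun m => (b (s m), Z m)) Pi g

attribute [instance] Chain.fin

/-- a state of the iteration: an extension `(Ps, b)` of `(P, B)` and a variable `Pi` absorbed
by `x0` -/
structure State (P : Law Ω) (B : Ω → β) (q : Ω → κ) (x0 : Ω → Fin d → ℤ) (ρ η : ℝ) : Type 1 where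
  Ωs : Type
  finS : Fintype Ωs
  Ps : Law Ωs
  π : Ωs → Ω
  βs : Type
  b : Ωs → βs
  Ξ : Type
  finX : Fintype Ξ
  R : Law Ξ
  bR : Ξ → βs
  Pi : Ξ → Fin d → ℤ
  smp : Smp Ps π P
  det : ∀ w w', b w = b w' → B (π w) = B (π w')
  cost : mi Ps π b (fun w => B (π w)) ≤ η
  same : ∀ y, Ps.pr b y = R.pr bR y
  abs : Abs1 Ps b (fun w => q (π w)) (fun w => x0 (π w)) R bR Pi (ρ + η)

attribute [instance] State.finS State.finX

/-- the law of the pairs with the same `x0` and `b` of a state -/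
noncomputable abbrev State.L {P : Law Ω} {B : Ω → β} {q : Ω → κ} {x0 : Ω → Fin d → ℤ} {ρ η : ℝ}
    (S : State P B q x0 ρ η) : Law (Law.GT (fun w : S.Ωs => (x0 (S.π w), S.b w))
      (fun w : S.Ωs => (x0 (S.π w), S.b w))) :=
  pairL S.Ps (fun w => (x0 (S.π w), S.b w))

/-- the chains of a state for the difference `D` of a function `f` on the two samples -/
abbrev State.Ch {P : Law Ω} {B : Ω → β} {q : Ω → κ} {x0 : Ω → Fin d → ℤ} {ρ η : ℝ}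
    (S : State P B q x0 ρ η) (f : Ω → Fin d → ℤ) (g : ℝ) : Type 1 :=
  Chain S.Ps S.b (fun w => q (S.π w)) (fun w => x0 (S.π w)) S.L (fun l => S.b l.fst)
    (fun l => f (S.π l.snd) - f (S.π l.fst)) ρ g

/-! ### The parts -/

/-- A1. existence of conditionally independent extensions -/
def PExt : Prop := ∀ (Ω₁ Ω₂ : Type) [Fintype Ω₁] [Fintype Ω₂] (γ : Type) (P₁ : Law Ω₁) (P₂ : Law Ω₂)
  (c₁ : Ω₁ → γ) (c₂ : Ω₂ → γ), (∀ x, P₁.pr c₁ x = P₂.pr c₂ x) →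
  ∃ (Ω : Type) (_ : Fintype Ω) (T : Law Ω) (p₁ : Ω → Ω₁) (p₂ : Ω → Ω₂),
    Smp T p₁ P₁ ∧ Smp T p₂ P₂ ∧ (∀ ω, c₁ (p₁ ω) = c₂ (p₂ ω)) ∧ mi T p₁ p₂ (fun ω => c₁ (p₁ ω)) = 0

/-- A8. the chain argument (parameters) -/
def PChain : Prop := ∀ (d N0 : ℕ) (g : ℝ), 0 < g → ∃ ε : ℝ, 0 < ε ∧ ∃ θ0 : ℕ, ∀ θ : ℕ, θ0 ≤ θ →
  ∀ (Ω : Type) [Fintype Ω] (P : Law Ω) (β κ : Type) (b : Ω → β) (q : Ω → κ)
    (x0 x φ : Ω → Fin d → ℤ) (ρ : ℝ),
    (∀ ω ω', b ω = b ω' → q ω = q ω' → φ ω = φ ω') →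
    (∀ ω c, |x ω c - x0 ω c - φ ω c| ≤ N0) →
    (∀ ω ω', b ω = b ω' → ∀ c, |x ω c - x ω' c| ≤ 2 ^ θ) →
    hc P x0 b ≤ ρ + ε * θ → hc P x b ≤ ρ + ε * θ → ρ - ε * θ ≤ hc P x0 (fun ω => (q ω, b ω)) →
    Nonempty (Chain P b q x0 (pairL P (fun ω => (x0 ω, b ω))) (fun l => b l.fst)
      (fun l => φ l.snd - φ l.fst) ρ (g * θ))

/-- A9. new states -/
def PNew : Prop := ∀ {Ω : Type} [Fintype Ω] {β κ : Type} {d : ℕ} (P : Law Ω) (B : Ω → β)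
  (q : Ω → κ) (x0 : Ω → Fin d → ℤ) (ρ η g e : ℝ) (f : Ω → Fin d → ℤ)
  (S : State P B q x0 ρ η) (C : S.Ch f g), 0 ≤ e → ρ - e ≤ hc P x0 (fun ω => (q ω, B ω)) →
  ∀ (Ω' : Type) [Fintype Ω'] (T : Law Ω') (ξ : Ω' → S.Ξ) (m : Ω' → C.Ωm), Smp T ξ S.R →
    Smp T m C.M → (∀ w, S.bR (ξ w) = S.b (C.s (m w))) →
    mi T ξ m (fun w => S.b (C.s (m w))) = 0 →
    ∃ S' : State P B q x0 ρ (2 * η + 2 * g + e), hc S'.R S'.Pi S'.bR =
      hc T (fun w => S.Pi (ξ w) + C.Pi (m w)) (fun w => (S.b (C.s (m w)), C.Z (m w)))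

/-- A10. if no new state gains more than `γ0`, then `Pi` absorbs `D` -/
def PGain : Prop := ∀ {Ω : Type} [Fintype Ω] {β κ : Type} {d : ℕ} (P : Law Ω) (B : Ω → β)
  (q : Ω → κ) (x0 : Ω → Fin d → ℤ) (ρ η g γ0 : ℝ) (f : Ω → Fin d → ℤ)
  (S : State P B q x0 ρ η) (C : S.Ch f g),
  (∀ (Ω' : Type) [Fintype Ω'] (T : Law Ω') (ξ : Ω' → S.Ξ) (m : Ω' → C.Ωm), Smp T ξ S.R →
    Smp T m C.M → (∀ w, S.bR (ξ w) = S.b (C.s (m w))) →
    mi T ξ m (fun w => S.b (C.s (m w))) = 0 →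
    hc T (fun w => S.Pi (ξ w) + C.Pi (m w)) (fun w => (S.b (C.s (m w)), C.Z (m w))) ≤
      hc S.R S.Pi S.bR + γ0) →
  Abs2 S.L (fun l => S.b l.fst) (fun l => f (S.π l.snd) - f (S.π l.fst)) S.R S.bR S.Pi (γ0 + 2 * g)

/-- A11. the potential is bounded -/
def PBound : Prop := ∀ {Ω : Type} [Fintype Ω] {β κ : Type} {d : ℕ} (P : Law Ω) (B : Ω → β)
  (q : Ω → κ) (x0 : Ω → Fin d → ℤ) (ρ η : ℝ) (S : State P B q x0 ρ η), hc S.R S.Pi S.bR ≤ ρ + η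

/-- A12. the initial state -/
def PInit : Prop := ∀ {Ω : Type} [Fintype Ω] {β κ : Type} {d : ℕ} (P : Law Ω) (B : Ω → β)
  (q : Ω → κ) (x0 : Ω → Fin d → ℤ) (ρ e : ℝ), 0 ≤ e → hc P x0 B ≤ ρ + e →
  ∃ S : State P B q x0 ρ e, 0 ≤ hc S.R S.Pi S.bR

/-- A13. the end of the proof -/
def PFinish : Prop := ∀ {Ω : Type} [Fintype Ω] {β κ : Type} {d J : ℕ} (N0 θ : ℕ) (ρ η e e2 : ℝ)
  (P : Law Ω) (B : Ω → β) (q : Ω → κ) (X : Fin (J + 1) → Ω → Fin d → ℤ)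
  (φ : Fin (J + 1) → β → κ → Fin d → ℤ) (σ : Fin (J + 1) → ℤ), (∀ i, σ i = 1 ∨ σ i = -1) →
  AbsHyp N0 θ ρ e P B q X φ → 0 ≤ e2 → ∀ (S : State P B q (X 0) ρ η),
  (∀ i, Abs2 S.L (fun l => S.b l.fst)
    (fun l => φ i (B (S.π l.snd)) (q (S.π l.snd)) - φ i (B (S.π l.fst)) (q (S.π l.fst)))
    S.R S.bR S.Pi e2) →
  ∃ (Ω' : Type) (_ : Fintype Ω') (P' : Law Ω') (ζ : Type) (Z : Ω' → ζ) (π π1 π2 : Ω' → Ω),
    AbsCon ρ ((J + 1) * (2 * η + e + e2)) P B q X φ σ P' Z π π1 π2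

end Vale.Agent.P127.Stk.Abs
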