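import Vale.Agent.P127.Stk.Abs.Basic

/-!
# P127 / Stk / Abs : the end of the proof of the absorption lemma (`PFinish`)
-/

namespace Vale.Agent.P127.Stk.Abs

open Finset Vale.Agent.P127 Vale.Agent.P127.Stk

/-- the composition lemmas of `Comp.lean`, as statements -/
def FinC1 : Prop := ∀ {Ω Ξ1 Ξ2 Ω' : Type} [Fintype Ω] [Fintype Ξ1] [Fintype Ξ2] [Fintype Ω']
  {β κ : Type} {d : ℕ} (P : Law Ω) (b : Ω → β) (q : Ω → κ) (x : Ω → Fin d → ℤ)
  (R1 : Law Ξ1) (bR1 : Ξ1 → β) (Pi1 : Ξ1 → Fin d → ℤ)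
  (R2 : Law Ξ2) (bR2 : Ξ2 → β) (Pi2 : Ξ2 → Fin d → ℤ) (ρ r1 r2 e0 : ℝ),
  Abs1 P b q x R1 bR1 Pi1 (ρ + r1) → Abs1 P b q x R2 bR2 Pi2 (ρ + r2) →
  ρ - e0 ≤ hc P x (fun ω => (q ω, b ω)) →
  ∀ (T : Law Ω') (ξ1 : Ω' → Ξ1) (ξ2 : Ω' → Ξ2), Smp T ξ1 R1 → Smp T ξ2 R2 →
    (∀ ω, bR1 (ξ1 ω) = bR2 (ξ2 ω)) → mi T ξ1 ξ2 (fun ω => bR1 (ξ1 ω)) = 0 →
    Abs1 P b q x T (fun ω => bR1 (ξ1 ω)) (fun ω => Pi1 (ξ1 ω) + Pi2 (ξ2 ω)) (ρ + r1 + r2 + e0)

def FinC2 : Prop := ∀ {Λ Ξ1 Ξ2 Ω' : Type} [Fintype Λ] [Fintype Ξ1] [Fintype Ξ2] [Fintype Ω']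
  {β : Type} {d : ℕ} (L : Law Λ) (bL : Λ → β) (D1 D2 : Λ → Fin d → ℤ)
  (R1 : Law Ξ1) (bR1 : Ξ1 → β) (Pi1 : Ξ1 → Fin d → ℤ)
  (R2 : Law Ξ2) (bR2 : Ξ2 → β) (Pi2 : Ξ2 → Fin d → ℤ) (e1 e2 : ℝ),
  Abs2 L bL D1 R1 bR1 Pi1 e1 → Abs2 L bL D2 R2 bR2 Pi2 e2 →
  ∀ (T : Law Ω') (ξ1 : Ω' → Ξ1) (ξ2 : Ω' → Ξ2), Smp T ξ1 R1 → Smp T ξ2 R2 →
    (∀ ω, bR1 (ξ1 ω) = bR2 (ξ2 ω)) → mi T ξ1 ξ2 (fun ω => bR1 (ξ1 ω)) = 0 →
    Abs2 L bL (fun l => D1 l + D2 l) T (fun ω => bR1 (ξ1 ω))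
      (fun ω => Pi1 (ξ1 ω) + Pi2 (ξ2 ω)) (e1 + e2)

def FinC4 : Prop := ∀ {Ω Ξ : Type} [Fintype Ω] [Fintype Ξ] {γ β : Type} {d : ℕ} (P : Law Ω)
  (c : Ω → γ) (b : Ω → β) (D : Law.GT c c → Fin d → ℤ) (R : Law Ξ) (bR : Ξ → β)
  (Pi : Ξ → Fin d → ℤ) (e : ℝ), (∀ ω ω', c ω = c ω' → b ω = b ω') →
  Abs2 (pairL P c) (fun l => b l.fst) D R bR Pi e →
  Abs2 (pairL P c) (fun l => b l.fst) (fun l => D ⟨l.snd, l.fst, l.eq.symm⟩) R bR Pi e

section

variable {Ω Ξ Λ : Type} [Fintype Ω] [Fintype Ξ] [Fintype Λ] {β κ : Type} {d : ℕ}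

/-- the sum of independent copies of `Pi` -/
theorem fin_build (hC1 : FinC1) (hC2 : FinC2) (P : Law Ω) (b : Ω → β) (q : Ω → κ)
    (x : Ω → Fin d → ℤ) (L : Law Λ) (bL : Λ → β) (R : Law Ξ) (bR : Ξ → β) (Pi : Ξ → Fin d → ℤ)
    (ρ η e0 e2 : ℝ) (h1 : Abs1 P b q x R bR Pi (ρ + η))
    (h0 : ρ - e0 ≤ hc P x (fun ω => (q ω, b ω))) :
    ∀ (n : ℕ) (D : Fin (n + 1) → Λ → Fin d → ℤ), (∀ i, Abs2 L bL (D i) R bR Pi e2) →
    ∃ (Ξ' : Type) (_ : Fintype Ξ') (R' : Law Ξ') (bR' : Ξ' → β) (Pi' : Ξ' → Fin d → ℤ),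
      (∀ y, R'.pr bR' y = R.pr bR y) ∧
      Abs1 P b q x R' bR' Pi' (ρ + (η + n * (η + e0))) ∧
      Abs2 L bL (fun l => ∑ i, D i l) R' bR' Pi' ((n + 1) * e2) := by
  intro n
  induction n with
  | zero =>
    intro D hD
    refine ⟨Ξ, inferInstance, R, bR, Pi, fun _ => rfl, ?_, ?_⟩
    · simpa using h1
    · simpa using hD 0
  | succ n ih =>
    intro D hD
    obtain ⟨Ξ', iΞ, R', bR', Pi', hs, hA, hB⟩ := ih (fun i => D i.castSucc) fun i => hD _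
    obtain ⟨Ω', iΩ, T, p1, p2, s1, s2, hb, hm⟩ := pext Ξ' Ξ β R' R bR' bR hs
    refine ⟨Ω', iΩ, T, fun ω => bR' (p1 ω), fun ω => Pi' (p1 ω) + Pi (p2 ω), ?_, ?_, ?_⟩
    · intro y
      rw [s1.pr bR' y]
      exact hs y
    · have := hC1 P b q x R' bR' Pi' R bR Pi ρ _ _ e0 hA h1 h0 T p1 p2 s1 s2 hb hm
      have e : ρ + (η + ((n + 1 : ℕ) : ℝ) * (η + e0)) = ρ + (η + n * (η + e0)) + η + e0 := by
        push_cast
        ring
      rw [e]
      exact this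
    · have := hC2 L bL (fun l => ∑ i : Fin (n + 1), D i.castSucc l) (D (Fin.last (n + 1)))
        R' bR' Pi' R bR Pi _ _ hB (hD _) T p1 p2 s1 s2 hb hm
      have e : (((n + 1 : ℕ) : ℝ) + 1) * e2 = (n + 1) * e2 + e2 := by
        push_cast
        ring
      rw [e]
      have e' : (fun l => ∑ i, D i l) =
          fun l => (∑ i : Fin (n + 1), D i.castSucc l) + D (Fin.last (n + 1)) l := by
        funext l
        exact Fin.sum_univ_castSucc (fun i => D i l)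
      rw [e']
      exact this

end

/-- the conditional entropy does not see an independent variable -/
theorem fin_hc_of_mi {Ω : Type} [Fintype Ω] {S T U : Type*} (P : Law Ω) {X : Ω → S} {Y : Ω → T}
    {Z : Ω → U} (h : mi P X Y Z = 0) : hc P X (fun ω => (Y ω, Z ω)) = hc P X Z := by
  unfold mi at h
  linarith

/-- the two samples of `pairL` are conditionally independent -/
theorem fin_pairL_mi {Ω : Type} [Fintype Ω] {γ : Type} (P : Law Ω) (c : Ω → γ) :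
    mi (pairL P c) (fun l => l.fst) (fun l => l.snd) (fun l => c l.fst) = 0 := by
  unfold pairL
  have h1 := Law.glue_indep (P := P) (Q := P) (X₁ := c) (X₂ := c) (fun _ => rfl)
    (fun a => a) (fun b => b)
  rw [mi_eq]
  have h2 : (Law.glue P P c c (fun _ => rfl)).H (fun p => (p.fst, c p.fst)) =
      P.H (fun a => (a, c a)) := Law.glue_H _ (fun a => (a, c a))
  have h3 : (Law.glue P P c c (fun _ => rfl)).H (fun p => (p.snd, c p.fst)) =
      P.H (fun a => (a, c a)) := by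
    rw [← Law.glue_H' (P := P) (Q := P) (X₁ := c) (X₂ := c) (fun _ => rfl) (fun a => (a, c a))]
    refine Law.H_congr _ fun ω ω' => ?_
    simp only [Prod.mk.injEq, ω.eq, ω'.eq]
  have h4 : (Law.glue P P c c (fun _ => rfl)).H (fun p => c p.fst) = P.H c := Law.glue_H _ c
  rw [h2, h3, h4, h1]
  ring

/-- `PFinish` from the composition lemmas -/
theorem pfinish_of (hC1 : FinC1) (hC2 : FinC2) (hC4 : FinC4) : PFinish := by
  intro Ω _ β κ d J N0 θ ρ η e e2 P B q X φ σ hσ hyp he2 S hS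
  -- signs
  have hη : 0 ≤ η := (mi_nonneg S.Ps _ _ _).trans S.cost
  have he : 0 ≤ e := by
    have h1 := hyp.upp 0
    have h2 := hyp.low
    have h3 := hc_mono_right P (X 0) (Y := B) (Y' := fun ω => (q ω, B ω))
      (fun ω ω' _ _ h => (Prod.mk.inj h).2)
    linarith
  -- the rate of `x0` over `b`
  have hlow : ρ - (e + η) ≤ hc S.Ps (fun w => X 0 (S.π w)) (fun w => (q (S.π w), S.b w)) := by
    have h1 : ρ - e ≤ hc S.Ps (fun w => X 0 (S.π w)) (fun w => (q (S.π w), B (S.π w))) := by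
      have := S.smp.hc (X 0) (fun ω => (q ω, B ω))
      rw [this]
      exact hyp.low
    have h2 : mi S.Ps (fun w => X 0 (S.π w)) S.b (fun w => (q (S.π w), B (S.π w))) ≤ η := by
      have h3 : mi S.Ps S.π S.b (fun w => (q (S.π w), B (S.π w))) ≤
          mi S.Ps S.π S.b (fun w => B (S.π w)) :=
        mi_cond_le S.Ps S.b (fun w => B (S.π w)) (W := fun w => q (S.π w))
          (fun ω ω' _ _ h => congrArg q (Prod.mk.inj h).1)
      have h4 : mi S.Ps (fun w => X 0 (S.π w)) S.b (fun w => (q (S.π w), B (S.π w))) ≤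
          mi S.Ps S.π S.b (fun w => (q (S.π w), B (S.π w))) :=
        mi_mono_left S.Ps S.b (fun ω ω' _ _ h => congrArg (X 0) (Prod.mk.inj h).1)
      exact h4.trans (h3.trans S.cost)
    have h5 : hc S.Ps (fun w => X 0 (S.π w)) (fun w => (S.b w, (q (S.π w), B (S.π w)))) ≤
        hc S.Ps (fun w => X 0 (S.π w)) (fun w => (q (S.π w), S.b w)) :=
      hc_mono_right S.Ps _ (fun ω ω' _ _ h => by
        simp only [Prod.mk.injEq] at h ⊢
        exact ⟨h.2.1, h.1⟩)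
    unfold mi at h2
    linarith
  -- the signed differences
  have hb_c : ∀ ω ω' : S.Ωs, (X 0 (S.π ω), S.b ω) = (X 0 (S.π ω'), S.b ω') → S.b ω = S.b ω' :=
    fun ω ω' h => (Prod.mk.inj h).2
  obtain ⟨D, hD⟩ : ∃ D : Fin (J + 1) → Law.GT (fun w : S.Ωs => (X 0 (S.π w), S.b w))
      (fun w : S.Ωs => (X 0 (S.π w), S.b w)) → Fin d → ℤ, ∀ i l, D i l =
      fun c => σ i * (φ i (B (S.π l.snd)) (q (S.π l.snd)) c - φ i (B (S.π l.fst)) (q (S.π l.fst)) c) :=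
    ⟨fun i l c => σ i * (φ i (B (S.π l.snd)) (q (S.π l.snd)) c -
      φ i (B (S.π l.fst)) (q (S.π l.fst)) c), fun _ _ => rfl⟩
  have hDabs : ∀ i, Abs2 S.L (fun l => S.b l.fst) (D i) S.R S.bR S.Pi e2 := by
    intro i
    rcases hσ i with h | h
    · have : D i = fun l => φ i (B (S.π l.snd)) (q (S.π l.snd)) -
          φ i (B (S.π l.fst)) (q (S.π l.fst)) := by
        funext l c
        rw [hD, h]
        simp
      rw [this]
      exact hS i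
    · have h4 := hC4 S.Ps (fun w : S.Ωs => (X 0 (S.π w), S.b w)) S.b _ S.R S.bR S.Pi e2 hb_c (hS i)
      have : D i = fun l => φ i (B (S.π l.fst)) (q (S.π l.fst)) -
          φ i (B (S.π l.snd)) (q (S.π l.snd)) := by
        funext l c
        rw [hD, h]
        simp
      rw [this]
      exact h4
  -- the sum of the copies
  obtain ⟨Ξ, iΞ, R, bR, Pi, hsame, hA1, hA2⟩ := fin_build hC1 hC2 S.Ps S.b (fun w => q (S.π w))
    (fun w => X 0 (S.π w)) S.L (fun l => S.b l.fst) S.R S.bR S.Pi ρ η (e + η) e2 S.abs hlow J D hDabs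
  -- the world
  have hLfst : Smp S.L (fun l => l.fst) S.Ps := fun ω => by
    rw [← pr_id S.Ps ω]
    exact Law.glue_pr (fun _ => rfl) id ω
  have hLsnd : Smp S.L (fun l => l.snd) S.Ps := fun ω => by
    rw [← pr_id S.Ps ω]
    exact Law.glue_pr' (fun _ => rfl) id ω
  obtain ⟨Ω1, i1, T1, l1, ξ1, sl1, sξ1, hb1, hm1⟩ := pext _ Ξ S.βs S.L R (fun l => S.b l.fst) bR
    (fun y => by rw [hLfst.pr S.b y, hsame y]; exact S.same y)
  have sfst1 : Smp T1 (fun ω => (l1 ω).fst) S.Ps := sl1.comp hLfst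
  obtain ⟨Ω', i', T, p1, w, sp1, sw, hb2, hm2⟩ := pext Ω1 S.Ωs S.βs T1 S.Ps
    (fun ω => S.b (l1 ω).fst) S.b (fun y => sfst1.pr S.b y)
  obtain ⟨l, hl⟩ : ∃ l, l = fun ω => l1 (p1 ω) := ⟨_, rfl⟩
  obtain ⟨ξ, hξ⟩ : ∃ ξ, ξ = fun ω => ξ1 (p1 ω) := ⟨_, rfl⟩
  have sl : Smp T l S.L := hl ▸ sp1.comp sl1
  have sξ : Smp T ξ R := hξ ▸ sp1.comp sξ1
  have sfst : Smp T (fun ω => (l ω).fst) S.Ps := sl.comp hLfst
  have ssnd : Smp T (fun ω => (l ω).snd) S.Ps := sl.comp hLsnd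
  have hbl : ∀ ω, S.b (l ω).fst = S.b (w ω) := fun ω => by rw [hl]; exact hb2 ω
  have hbs : ∀ ω, S.b (l ω).snd = S.b (w ω) := fun ω => by
    rw [← hbl ω]
    exact (hb_c _ _ (l ω).eq).symm
  have hbξ : ∀ ω, bR (ξ ω) = S.b (w ω) := fun ω => by
    rw [← hbl ω, hl, hξ]
    exact (hb1 (p1 ω)).symm
  -- independence
  have hml : mi T l ξ (fun ω => S.b (l ω).fst) = 0 := by
    rw [hl, hξ]
    exact (sp1.mi l1 ξ1 (fun ω => S.b (l1 ω).fst)).trans hm1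
  have hmw : mi T (fun ω => (l ω, ξ ω)) w (fun ω => S.b (w ω)) = 0 := by
    have h1 : mi T (fun ω => (l ω, ξ ω)) w (fun ω => S.b (l1 (p1 ω)).fst) = 0 :=
      mi_zero_of hm2 (fun ω ω' h _ => by rw [hl, hξ]; simp only [h]) (fun ω ω' h _ => h)
    rw [← h1]
    have : (fun ω => S.b (w ω)) = fun ω => S.b (l1 (p1 ω)).fst := by
      funext ω
      exact (hb2 ω).symm
    rw [this]
  have hmlw : mi T l ξ (fun ω => S.b (w ω)) = 0 := by
    rw [← hml]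
    have : (fun ω => S.b (w ω)) = fun ω => S.b (l ω).fst := by
      funext ω
      exact (hbl ω).symm
    rw [this]
  -- `ξ` is independent of `(l, w)`
  have hmξ : mi T ξ (fun ω => (l ω, w ω)) (fun ω => S.b (w ω)) = 0 := by
    rw [mi_pair, mi_symm T ξ l, hmlw, zero_add]
    refine le_antisymm ?_ (mi_nonneg T _ _ _)
    have h1 : mi T (fun ω => (l ω, ξ ω)) w (fun ω => (l ω, S.b (w ω))) ≤ 0 := by
      rw [← hmw]
      exact mi_cond_le T w (fun ω => S.b (w ω)) (fun ω ω' _ _ h => congrArg Prod.fst (Prod.mk.inj h).1)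
    refine le_trans (mi_mono_left T w (fun ω ω' _ _ h => ?_)) h1
    exact congrArg Prod.snd (Prod.mk.inj h).1
  -- `w` and `ξ` over `b`
  have hmwξ : mi T w ξ (fun ω => S.b (w ω)) = 0 := by
    rw [mi_symm]
    exact mi_zero_of hmξ (fun ω ω' h _ => h) (fun ω ω' h _ => congrArg Prod.snd h)
  -- the total shift
  obtain ⟨W, hW⟩ : ∃ W : Ω' → Fin d → ℤ, W = fun ω => ∑ i, D i (l ω) := ⟨_, rfl⟩
  obtain ⟨Q, hQ⟩ : ∃ Q : Ω' → Fin d → ℤ, Q = fun ω => Pi (ξ ω) := ⟨_, rfl⟩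
  have hWl : ∀ ω ω', l ω = l ω' → W ω = W ω' := fun ω ω' h => by rw [hW]; simp only [h]
  have hQξ : ∀ ω ω', ξ ω = ξ ω' → Q ω = Q ω' := fun ω ω' h => by rw [hQ]; simp only [h]
  have k1 : hc T (fun ω => X 0 (S.π (w ω)) + Q ω) (fun ω => (q (S.π (w ω)), S.b (w ω))) ≤
      ρ + (η + J * (η + (e + η))) := by
    rw [hQ]
    exact hA1 Ω' T w ξ sw sξ (fun ω => (hbξ ω).symm) hmwξ
  have k2 : hc T (fun ω => Q ω + W ω) (fun ω => S.b (w ω)) ≤
      hc T Q (fun ω => S.b (w ω)) + (J + 1) * e2 := by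
    have h1 := hA2 Ω' T l ξ sl sξ (fun ω => (hbl ω).trans (hbξ ω).symm) hml
    have h2 : hc R Pi bR = hc T Q (fun ω => S.b (w ω)) := by
      rw [← sξ.hc Pi bR, hQ]
      have : (fun ω => bR (ξ ω)) = fun ω => S.b (w ω) := funext hbξ
      rw [this]
    have h3 : (fun ω => S.b (l ω).fst) = fun ω => S.b (w ω) := funext hbl
    rw [h2, h3] at h1
    rw [hW, hQ] at *
    exact h1
  -- Madiman
  have hind : hc T (fun ω => X 0 (S.π (w ω))) (fun ω => (q (S.π (w ω)), S.b (w ω))) +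
      hc T Q (fun ω => (q (S.π (w ω)), S.b (w ω))) +
      hc T W (fun ω => (q (S.π (w ω)), S.b (w ω))) - 0 ≤
      hc T (fun ω => (X 0 (S.π (w ω)), Q ω, W ω)) (fun ω => (q (S.π (w ω)), S.b (w ω))) := by
    rw [hc_pair T (fun ω => X 0 (S.π (w ω))) (fun ω => (Q ω, W ω))]
    have h1 : hc T (fun ω => (Q ω, W ω))
        (fun ω => ((X 0 (S.π (w ω)), q (S.π (w ω))), S.b (w ω))) =
        hc T (fun ω => (Q ω, W ω)) (fun ω => S.b (w ω)) := by
      refine fin_hc_of_mi T (mi_zero_of hmw (fun ω ω' h _ => ?_) (fun ω ω' h _ => ?_))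
      · rw [hQξ ω ω' (Prod.mk.inj h).2, hWl ω ω' (Prod.mk.inj h).1]
      · rw [h]
    have h2 : hc T (fun ω => (Q ω, W ω))
        (fun ω => ((X 0 (S.π (w ω)), q (S.π (w ω))), S.b (w ω))) ≤ hc T (fun ω => (Q ω, W ω))
        (fun ω => (X 0 (S.π (w ω)), (q (S.π (w ω)), S.b (w ω)))) :=
      hc_mono_right T _ (fun ω ω' _ _ h => by
        simp only [Prod.mk.injEq] at h ⊢
        exact ⟨h.1.1, h.1.2, h.2⟩)
    have h3 := hc_pair T Q W (fun ω => S.b (w ω))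
    have h4 : hc T W (fun ω => (Q ω, S.b (w ω))) = hc T W (fun ω => S.b (w ω)) :=
      fin_hc_of_mi T (mi_zero_of hmlw (fun ω ω' h _ => hWl ω ω' h) (fun ω ω' h _ => hQξ ω ω' h))
    have h5 : hc T Q (fun ω => (q (S.π (w ω)), S.b (w ω))) ≤ hc T Q (fun ω => S.b (w ω)) :=
      hc_mono_right T _ (fun ω ω' _ _ h => (Prod.mk.inj h).2)
    have h6 : hc T W (fun ω => (q (S.π (w ω)), S.b (w ω))) ≤ hc T W (fun ω => S.b (w ω)) :=
      hc_mono_right T _ (fun ω ω' _ _ h => (Prod.mk.inj h).2)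
    linarith
  have hQind : hc T Q (fun ω => (q (S.π (w ω)), S.b (w ω))) = hc T Q (fun ω => S.b (w ω)) := by
    refine fin_hc_of_mi T ?_
    exact mi_zero_of hmξ (fun ω ω' h _ => hQξ ω ω' h)
      (fun ω ω' h _ => by rw [(Prod.mk.inj h).2])
  have hmad := Add.madiman T (fun ω => X 0 (S.π (w ω))) Q W
    (fun ω => (q (S.π (w ω)), S.b (w ω))) (δ := 0) hind
  have hk2 : hc T (fun ω => Q ω + W ω) (fun ω => (q (S.π (w ω)), S.b (w ω))) ≤
      hc T (fun ω => Q ω + W ω) (fun ω => S.b (w ω)) :=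
    hc_mono_right T _ (fun ω ω' _ _ h => (Prod.mk.inj h).2)
  have hlow2 : hc T (fun ω => X 0 (S.π (w ω)) + W ω) (fun ω => (q (S.π (w ω)), S.b (w ω))) ≤
      hc T (fun ω => X 0 (S.π (w ω)) + Q ω + W ω) (fun ω => (q (S.π (w ω)), S.b (w ω))) := by
    have h1 : mi T (fun ω => (l ω, w ω)) ξ (fun ω => (q (S.π (w ω)), S.b (w ω))) = 0 := by
      refine mi_zero_cond (by rw [mi_symm]; exact hmξ) (fun ω ω' h _ => ?_)
      rw [(Prod.mk.inj h).2]
    have h2 : mi T (fun ω => X 0 (S.π (w ω)) + W ω) Q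
        (fun ω => (q (S.π (w ω)), S.b (w ω))) = 0 :=
      mi_zero_of h1 (fun ω ω' h _ => by rw [(Prod.mk.inj h).2, hWl ω ω' (Prod.mk.inj h).1])
        (fun ω ω' h _ => hQξ ω ω' h)
    have h3 := Add.add_lower T (fun ω => X 0 (S.π (w ω)) + W ω) Q
      (fun ω => (q (S.π (w ω)), S.b (w ω)))
    rw [fin_hc_of_mi T h2] at h3
    refine h3.trans (le_of_eq ?_)
    have : (fun ω => X 0 (S.π (w ω)) + W ω + Q ω) = fun ω => X 0 (S.π (w ω)) + Q ω + W ω := by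
      funext ω
      abel
    rw [this]
  have htot : η + J * (η + (e + η)) + (J + 1) * e2 ≤ (J + 1) * (2 * η + e + e2) := by
    nlinarith
  refine ⟨Ω', i', T, S.βs, fun ω => S.b (w ω), fun ω => S.π (w ω), fun ω => S.π (l ω).fst,
    fun ω => S.π (l ω).snd, ?_⟩
  refine
    { smp := fun ω => (sw.comp S.smp) ω
      B1 := fun ω => S.det _ _ (hbl ω)
      B2 := fun ω => S.det _ _ (hbs ω)
      X12 := fun ω => (Prod.mk.inj (l ω).eq).1
      law1 := ?_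
      law2 := ?_
      ci12 := ?_
      ci0 := ?_
      cost := ?_
      main := ?_ }
  · intro z ω
    have h1 := sfst.pr (fun v => (S.b v, S.π v)) (z, ω)
    have h2 := sw.pr (fun v => (S.b v, S.π v)) (z, ω)
    rw [h2, ← h1]
    simp only [hbl]
  · intro z ω
    have h1 := ssnd.pr (fun v => (S.b v, S.π v)) (z, ω)
    have h2 := sw.pr (fun v => (S.b v, S.π v)) (z, ω)
    rw [h2, ← h1]
    simp only [hbs]
  · -- `π1`, `π2` are independent given `(X 0, B, Z)`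
    have h0 : mi S.L (fun l => l.fst) (fun l => l.snd)
        (fun l => (X 0 (S.π l.fst), S.b l.fst)) = 0 :=
      fin_pairL_mi S.Ps (fun w : S.Ωs => (X 0 (S.π w), S.b w))
    have h1 : mi T (fun ω => (l ω).fst) (fun ω => (l ω).snd)
        (fun ω => (X 0 (S.π (l ω).fst), S.b (l ω).fst)) = 0 :=
      (sl.mi (fun l => l.fst) (fun l => l.snd) (fun l => (X 0 (S.π l.fst), S.b l.fst))).trans h0
    have h2 : mi T (fun ω => S.π (l ω).fst) (fun ω => S.π (l ω).snd)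
        (fun ω => (X 0 (S.π (l ω).fst), S.b (l ω).fst)) = 0 :=
      mi_zero_of h1 (fun ω ω' h _ => by rw [h]) (fun ω ω' h _ => by rw [h])
    rw [← h2]
    refine mi_congr_cond T _ _ (fun ω ω' _ _ h => ?_) (fun ω ω' _ _ h => ?_)
    · simp only [Prod.mk.injEq, hbl] at h ⊢
      exact ⟨h.1, S.det _ _ h.2, h.2⟩
    · simp only [Prod.mk.injEq, hbl] at h ⊢
      exact ⟨h.1, h.2.2⟩
  · -- `(π1, π2)` and `π` are independent given `(B, Z)`
    have h2 : mi T (fun ω => (S.π (l ω).fst, S.π (l ω).snd)) (fun ω => S.π (w ω))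
        (fun ω => S.b (w ω)) = 0 :=
      mi_zero_of hmw (fun ω ω' h _ => by rw [(Prod.mk.inj h).1]) (fun ω ω' h _ => by rw [h])
    rw [← h2]
    refine mi_congr_cond T _ _ (fun ω ω' _ _ h => ?_) (fun ω ω' _ _ h => ?_)
    · simp only [Prod.mk.injEq]
      exact ⟨S.det _ _ h, h⟩
    · exact (Prod.mk.inj h).2
  · have h1 := sw.mi S.π S.b (fun w => B (S.π w))
    rw [h1]
    refine S.cost.trans ?_
    have h2 : (0 : ℝ) ≤ J := Nat.cast_nonneg J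
    nlinarith [mul_nonneg h2 hη, mul_nonneg h2 he, mul_nonneg h2 he2]
  · have h1 : (fun ω c => X 0 (S.π (w ω)) c + ∑ i, σ i * (φ i (B (S.π (w ω)))
        (q (S.π (l ω).snd)) c - φ i (B (S.π (w ω))) (q (S.π (l ω).fst)) c)) =
        fun ω => X 0 (S.π (w ω)) + W ω := by
      funext ω c
      have e1 : B (S.π (l ω).fst) = B (S.π (w ω)) := S.det _ _ (hbl ω)
      have e2 : B (S.π (l ω).snd) = B (S.π (w ω)) := S.det _ _ (hbs ω)
      simp only [hW, _root_.Pi.add_apply, Finset.sum_apply, hD, e1, e2]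
    rw [h1]
    have h2 : hc T (fun ω => X 0 (S.π (w ω)) + W ω)
        (fun ω => (q (S.π (w ω)), B (S.π (w ω)), S.b (w ω))) ≤
        hc T (fun ω => X 0 (S.π (w ω)) + W ω) (fun ω => (q (S.π (w ω)), S.b (w ω))) :=
      hc_mono_right T _ (fun ω ω' _ _ h => by
        simp only [Prod.mk.injEq] at h ⊢
        exact ⟨h.1, h.2.2⟩)
    linarith

end Vale.Agent.P127.Stk.Abs
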