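import Vale.Agent.P127.Stk.Abs.Basic

/-!
# P127 / Stk / Abs : the iteration and the assembly of the absorption lemma
-/

namespace Vale.Agent.P127.Stk.Abs

open Finset Vale.Agent.P127 Vale.Agent.P127.Stk

section

variable {Ω : Type} [Fintype Ω] {β κ : Type} {d : ℕ} {P : Law Ω} {B : Ω → β} {q : Ω → κ}
  {x0 : Ω → Fin d → ℤ} {ρ η η' e : ℝ}

/-- monotonicity in the level -/
def State.up (S : State P B q x0 ρ η) (h : η ≤ η') : State P B q x0 ρ η' where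
  Ωs := S.Ωs
  finS := S.finS
  Ps := S.Ps
  π := S.π
  βs := S.βs
  b := S.b
  Ξ := S.Ξ
  finX := S.finX
  R := S.R
  bR := S.bR
  Pi := S.Pi
  smp := S.smp
  det := S.det
  cost := S.cost.trans h
  same := S.same
  abs := fun Ω' _ T w ξ h1 h2 h3 h4 => (S.abs Ω' T w ξ h1 h2 h3 h4).trans (by linarith)

theorem State.upp (S : State P B q x0 ρ η) (X : Ω → Fin d → ℤ) :
    hc S.Ps (fun w => X (S.π w)) S.b ≤ hc P X B := by
  rw [← S.smp.hc X B]
  exact Add.hc_anti S.Ps S.det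

theorem State.low (S : State P B q x0 ρ η) (h : ρ - e ≤ hc P x0 (fun ω => (q ω, B ω))) :
    ρ - (e + η) ≤ hc S.Ps (fun w => x0 (S.π w)) (fun w => (q (S.π w), S.b w)) := by
  have h1 := S.smp.hc x0 (fun ω => (q ω, B ω))
  have h2 : mi S.Ps (fun w => x0 (S.π w)) S.b (fun w => (q (S.π w), B (S.π w))) ≤ η := by
    refine le_trans ?_ S.cost
    refine le_trans ?_ (mi_cond_le S.Ps S.b (W := fun w => q (S.π w)) (fun w => B (S.π w)) ?_)
    · exact mi_mono_left S.Ps S.b fun ω ω' _ _ e => by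
        simp only [Prod.mk.injEq] at e
        rw [e.1]
    · intro ω ω' _ _ e
      simp only [Prod.mk.injEq] at e
      simp only [e.1]
  have h3 : hc S.Ps (fun w => x0 (S.π w)) (fun w => (S.b w, q (S.π w), B (S.π w))) ≤
      hc S.Ps (fun w => x0 (S.π w)) (fun w => (q (S.π w), S.b w)) := by
    refine Add.hc_anti S.Ps fun ω ω' e => ?_
    simp only [Prod.mk.injEq] at e ⊢
    exact ⟨e.2.1, e.1⟩
  have h4 : hc S.Ps (fun w => x0 (S.π w)) (fun w => (q (S.π w), B (S.π w))) -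
      hc S.Ps (fun w => x0 (S.π w)) (fun w => (S.b w, q (S.π w), B (S.π w))) ≤ η := h2
  linarith

theorem State.eta_nonneg (S : State P B q x0 ρ η) : 0 ≤ η :=
  (mi_nonneg S.Ps S.π S.b (fun w => B (S.π w))).trans S.cost

end

theorem AbsCon.mono {Ω : Type} [Fintype Ω] {β κ : Type} {d J : ℕ} {ρ e e' : ℝ} {P : Law Ω}
    {B : Ω → β} {q : Ω → κ} {X : Fin (J + 1) → Ω → Fin d → ℤ}
    {φ : Fin (J + 1) → β → κ → Fin d → ℤ} {σ : Fin (J + 1) → ℤ}
    {Ω' : Type} [Fintype Ω'] {P' : Law Ω'} {ζ : Type} {Z : Ω' → ζ} {π π1 π2 : Ω' → Ω}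
    (h : AbsCon ρ e P B q X φ σ P' Z π π1 π2) (he : e ≤ e') :
    AbsCon ρ e' P B q X φ σ P' Z π π1 π2 :=
  { h with
    cost := h.cost.trans he
    main := h.main.trans (by linarith) }

/-- the conclusion of the absorption lemma -/
def Concl {Ω : Type} [Fintype Ω] {β κ : Type} {d J : ℕ} (ρ e' : ℝ) (P : Law Ω)
    (B : Ω → β) (q : Ω → κ) (X : Fin (J + 1) → Ω → Fin d → ℤ)
    (φ : Fin (J + 1) → β → κ → Fin d → ℤ) (σ : Fin (J + 1) → ℤ) : Prop :=
  ∃ (Ω' : Type) (_ : Fintype Ω') (P' : Law Ω') (ζ : Type) (Z : Ω' → ζ) (π π1 π2 : Ω' → Ω),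
      AbsCon ρ e' P B q X φ σ P' Z π π1 π2

theorem AbsHyp.e_nonneg {Ω : Type} [Fintype Ω] {β κ : Type} {d J : ℕ} {N0 θ : ℕ} {ρ e : ℝ}
    {P : Law Ω} {B : Ω → β} {q : Ω → κ} {X : Fin (J + 1) → Ω → Fin d → ℤ}
    {φ : Fin (J + 1) → β → κ → Fin d → ℤ} (h : AbsHyp N0 θ ρ e P B q X φ) : 0 ≤ e := by
  have h1 := h.upp 0
  have h2 := h.low
  have h3 : hc P (X 0) (fun ω => (q ω, B ω)) ≤ hc P (X 0) B := Add.hc_anti P fun ω ω' e => by
    simp only [Prod.mk.injEq] at e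
    exact e.2
  linarith

theorem AbsHyp.rho_le {Ω : Type} [Fintype Ω] {β κ : Type} {d J : ℕ} {N0 θ : ℕ} {ρ e : ℝ}
    {P : Law Ω} {B : Ω → β} {q : Ω → κ} {X : Fin (J + 1) → Ω → Fin d → ℤ}
    {φ : Fin (J + 1) → β → κ → Fin d → ℤ} (h : AbsHyp N0 θ ρ e P B q X φ) (hθ : 2 ≤ θ) :
    ρ ≤ e + 2 * d * θ := by
  classical
  have h2 := h.low
  have h3 : hc P (X 0) (fun ω => (q ω, B ω)) ≤ hc P (X 0) B := Add.hc_anti P fun ω ω' e => by
    simp only [Prod.mk.injEq] at e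
    exact e.2
  have h4 : hc P (X 0) B ≤ Real.log (((2 * 2 ^ θ + 1) ^ d : ℕ) : ℝ) := by
    refine hc_le_log P _ _ _ fun ω hω => ?_
    refine ⟨Fintype.piFinset fun i => Finset.Icc (X 0 ω i - 2 ^ θ) (X 0 ω i + 2 ^ θ), ?_, ?_⟩
    · rw [Fintype.card_piFinset]
      have : ∀ i, (Finset.Icc (X 0 ω i - 2 ^ θ) (X 0 ω i + 2 ^ θ)).card = 2 * 2 ^ θ + 1 := by
        intro i
        rw [Int.card_Icc]
        have : X 0 ω i + 2 ^ θ + 1 - (X 0 ω i - 2 ^ θ) = ((2 * 2 ^ θ + 1 : ℕ) : ℤ) := by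
          push_cast
          ring
        rw [this, Int.toNat_natCast]
      simp only [this, Finset.prod_const, Finset.card_univ, Fintype.card_fin]
      exact le_rfl
    · intro ω' hω' e
      rw [Fintype.mem_piFinset]
      intro i
      have h2 := abs_le.1 (h.rng 0 ω' ω e i)
      rw [Finset.mem_Icc]
      constructor <;> linarith [h2.1, h2.2]
  have h5 : Real.log (((2 * 2 ^ θ + 1) ^ d : ℕ) : ℝ) ≤ 2 * d * θ := by
    push_cast
    rw [Real.log_pow]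
    have h6 : (2 * 2 ^ θ + 1 : ℝ) ≤ 2 ^ (θ + 2) := by
      have : (1 : ℝ) ≤ 2 ^ θ := one_le_pow₀ (by norm_num)
      rw [pow_add]
      linarith
    have h7 : Real.log (2 * 2 ^ θ + 1 : ℝ) ≤ (θ + 2 : ℕ) * Real.log 2 := by
      rw [← Real.log_pow]
      exact Real.log_le_log (by positivity) h6
    have h8 : Real.log 2 ≤ 1 := by
      have := Real.log_two_lt_d9
      linarith
    have h9 : Real.log (2 * 2 ^ θ + 1 : ℝ) ≤ 2 * θ := by
      refine h7.trans ?_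
      have : ((θ + 2 : ℕ) : ℝ) * Real.log 2 ≤ ((θ + 2 : ℕ) : ℝ) * 1 :=
        mul_le_mul_of_nonneg_left h8 (by positivity)
      refine this.trans ?_
      push_cast
      have : (2 : ℝ) ≤ θ := by exact_mod_cast hθ
      linarith
    have : (d : ℝ) * Real.log (2 * 2 ^ θ + 1) ≤ d * (2 * θ) :=
      mul_le_mul_of_nonneg_left h9 (by positivity)
    linarith
  linarith

/-- the iteration -/
theorem iter (hChain : PChain) (hNew : PNew) (hGain : PGain) (hBd : PBound) (hFin : PFinish)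
    (d J N0 : ℕ) (ε' : ℝ) (hε : 0 < ε') (γ c0 : ℝ) (hγ : γ = ε' / (4 * (J + 1)))
    (hc0 : 0 < c0) (hc1 : c0 ≤ 1 / 4) (hc2 : c0 ≤ γ) (n : ℕ) :
    ∃ c : ℝ, 0 < c ∧ c ≤ c0 ∧ ∃ θ0 : ℕ, ∀ θ : ℕ, θ0 ≤ θ →
      ∀ (Ω : Type) [Fintype Ω] (P : Law Ω) (β κ : Type) (B : Ω → β) (q : Ω → κ)
        (X : Fin (J + 1) → Ω → Fin d → ℤ) (φ : Fin (J + 1) → β → κ → Fin d → ℤ) (ρ e : ℝ)
        (σ : Fin (J + 1) → ℤ), (∀ i, σ i = 1 ∨ σ i = -1) →
        AbsHyp N0 θ ρ e P B q X φ → e ≤ c * θ →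
        ∀ S : State P B q (X 0) ρ (c * θ),
          (2 * d + 1) * θ - n * (γ * θ) < hc S.R S.Pi S.bR → Concl ρ (ε' * θ) P B q X φ σ := by
  induction n with
  | zero =>
    refine ⟨c0, hc0, le_rfl, 2, ?_⟩
    intro θ hθ Ω _ P β κ B q X φ ρ e σ hσ hH he S hS
    exfalso
    have h1 := hBd P B q (X 0) ρ (c0 * θ) S
    have h2 := AbsHyp.rho_le hH hθ
    have h3 : (2 : ℝ) ≤ θ := by exact_mod_cast hθ
    have h4 : c0 * θ ≤ 1 / 4 * θ := mul_le_mul_of_nonneg_right hc1 (by linarith)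
    simp only [Nat.cast_zero, zero_mul, sub_zero] at hS
    nlinarith
  | succ n ih =>
    obtain ⟨c, hcp, hcc, θ1, ih⟩ := ih
    obtain ⟨ε1, hε1, θ2, hCh⟩ := hChain d N0 (c / 8) (by positivity)
    obtain ⟨c', hc'0, hc'1, hc'2⟩ : ∃ c' : ℝ, 0 < c' ∧ c' ≤ c / 8 ∧ c' ≤ ε1 / 2 :=
      ⟨min (c / 8) (ε1 / 2), by positivity, min_le_left _ _, min_le_right _ _⟩
    refine ⟨c', hc'0, hc'1.trans (by linarith), max θ1 (max θ2 2), ?_⟩
    intro θ hθ Ω _ P β κ B q X φ ρ e σ hσ hH he S hS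
    have hθ1 : θ1 ≤ θ := (le_max_left _ _).trans hθ
    have hθ2 : θ2 ≤ θ := (le_max_left _ _).trans ((le_max_right _ _).trans hθ)
    have hθ3 : 2 ≤ θ := (le_max_right _ _).trans ((le_max_right _ _).trans hθ)
    have hθr : (2 : ℝ) ≤ θ := by exact_mod_cast hθ3
    have hc'1' : c' * θ ≤ c / 8 * θ := mul_le_mul_of_nonneg_right hc'1 (by linarith)
    have hc'2' : c' * θ ≤ ε1 / 2 * θ := mul_le_mul_of_nonneg_right hc'2 (by linarith)
    have he0 : 0 ≤ e := AbsHyp.e_nonneg hH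
    have hη0 : 0 ≤ c' * θ := S.eta_nonneg
    have hC : ∀ i, Nonempty (S.Ch (fun ω => φ i (B ω) (q ω)) (c / 8 * θ)) := by
      intro i
      refine hCh θ hθ2 S.Ωs S.Ps S.βs κ S.b (fun w => q (S.π w)) (fun w => X 0 (S.π w))
        (fun w => X i (S.π w)) (fun w => φ i (B (S.π w)) (q (S.π w))) ρ ?_ ?_ ?_ ?_ ?_ ?_
      · intro w w' h1 h2
        rw [S.det w w' h1, h2]
      · intro w k
        exact hH.err i (S.π w) k
      · intro w w' h1 k
        exact hH.rng i (S.π w) (S.π w') (S.det w w' h1) k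
      · have h1 := S.upp (X 0)
        have h2 := hH.upp 0
        have h3 : 0 ≤ ε1 / 2 * θ := by positivity
        linarith
      · have h1 := S.upp (X i)
        have h2 := hH.upp i
        have h3 : 0 ≤ ε1 / 2 * θ := by positivity
        linarith
      · have h1 := S.low hH.low
        linarith
    by_cases hg : ∀ i, ∃ C : S.Ch (fun ω => φ i (B ω) (q ω)) (c / 8 * θ),
        ∀ (Ω' : Type) [Fintype Ω'] (T : Law Ω') (ξ : Ω' → S.Ξ) (m : Ω' → C.Ωm), Smp T ξ S.R →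
          Smp T m C.M → (∀ w, S.bR (ξ w) = S.b (C.s (m w))) →
          mi T ξ m (fun w => S.b (C.s (m w))) = 0 →
          hc T (fun w => S.Pi (ξ w) + C.Pi (m w)) (fun w => (S.b (C.s (m w)), C.Z (m w))) ≤
            hc S.R S.Pi S.bR + γ * θ
    · -- no gain
      have h2 : ∀ i, Abs2 S.L (fun l => S.b l.fst)
          (fun l => φ i (B (S.π l.snd)) (q (S.π l.snd)) - φ i (B (S.π l.fst)) (q (S.π l.fst)))
          S.R S.bR S.Pi (γ * θ + 2 * (c / 8 * θ)) := by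
        intro i
        obtain ⟨C, hC'⟩ := hg i
        exact hGain P B q (X 0) ρ (c' * θ) (c / 8 * θ) (γ * θ) (fun ω => φ i (B ω) (q ω)) S C hC'
      have hγ0 : 0 < γ := by rw [hγ]; positivity
      obtain ⟨Ω', f, P', ζ, Z, π, π1, π2, hcon⟩ := hFin N0 θ ρ (c' * θ) e
        (γ * θ + 2 * (c / 8 * θ)) P B q X φ σ hσ hH (by positivity) S h2
      refine ⟨Ω', f, P', ζ, Z, π, π1, π2, AbsCon.mono hcon ?_⟩
      have hJ : (0 : ℝ) < J + 1 := by positivity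
      have h5 : 2 * (c' * θ) + e + (γ * θ + 2 * (c / 8 * θ)) ≤ 4 * γ * θ := by
        have h6 : c * θ ≤ γ * θ := mul_le_mul_of_nonneg_right (hcc.trans hc2) (by linarith)
        have h7 : 0 ≤ γ * θ := by positivity
        linarith
      calc ((J : ℝ) + 1) * (2 * (c' * θ) + e + (γ * θ + 2 * (c / 8 * θ)))
          ≤ (J + 1) * (4 * γ * θ) := mul_le_mul_of_nonneg_left h5 hJ.le
        _ = ε' * θ := by
            rw [hγ]
            field_simp
    · -- gain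
      push Not at hg
      obtain ⟨i, hi⟩ := hg
      obtain ⟨C⟩ := hC i
      obtain ⟨Ω', _, T, ξ, m, h1, h2, h3, h4, h5⟩ := hi C
      obtain ⟨S', hS'⟩ := hNew P B q (X 0) ρ (c' * θ) (c / 8 * θ) e (fun ω => φ i (B ω) (q ω)) S C
        he0 hH.low Ω' T ξ m h1 h2 h3 h4
      have hlev : 2 * (c' * θ) + 2 * (c / 8 * θ) + e ≤ c * θ := by linarith
      have hec : e ≤ c * θ := by
        have : 0 ≤ c * θ := by positivity
        linarith
      refine ih θ hθ1 Ω P β κ B q X φ ρ e σ hσ hH hec (S'.up hlev) ?_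
      change _ < hc S'.R S'.Pi S'.bR
      rw [hS']
      push_cast at hS
      linarith

/-- the absorption lemma from its parts -/
theorem abs_of (hChain : PChain) (hNew : PNew) (hGain : PGain) (hBd : PBound) (hInit : PInit)
    (hFin : PFinish) : PAbs := by
  intro d J N0 ε' hε
  set γ : ℝ := ε' / (4 * (J + 1)) with hγ
  have hγ0 : 0 < γ := by positivity
  obtain ⟨n, hn⟩ := exists_nat_gt ((2 * d + 1) / γ)
  obtain ⟨c, hc, -, θ0, h⟩ := iter hChain hNew hGain hBd hFin d J N0 ε' hε γ (min γ (1 / 4)) hγ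
    (by positivity) (min_le_right _ _) (min_le_left _ _) n
  refine ⟨c, hc, max θ0 1, ?_⟩
  intro θ hθ Ω _ P β κ B q X φ ρ σ hσ hH
  have hθ0 : θ0 ≤ θ := (le_max_left _ _).trans hθ
  have hθ1 : (1 : ℝ) ≤ θ := by exact_mod_cast (le_max_right _ _).trans hθ
  obtain ⟨S, hS⟩ := hInit P B q (X 0) ρ (c * θ) (by positivity) (hH.upp 0)
  refine h θ hθ0 Ω P β κ B q X φ ρ (c * θ) σ hσ hH le_rfl S (lt_of_lt_of_le ?_ hS)
  have h1 : (2 * d + 1 : ℝ) < n * γ := by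
    rwa [div_lt_iff₀ hγ0] at hn
  nlinarith

end Vale.Agent.P127.Stk.Abs
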